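import Vale.Agent.H97.FO.Defs

/-!
# Foster sums: the atoms at distinct points are independent (support for P058, project FO)

TASK FO-5.  Prove `fo_cauchy` (keep the statement unchanged; helper lemmas with fresh names
starting `fo5_` inside this file).  Only Mathlib and `fk` (`fk τ s = τ / (τ ^ 2 + s ^ 2)`).

The matrix `M j l = τ j / (τ j ^ 2 + (l + 1) ^ 2)` (a Cauchy matrix times a diagonal matrix) has
nonzero determinant when the `τ j` are positive and distinct.

Suppose `det M = 0`: by `Matrix.exists_mulVec_eq_zero_iff` there is `c ≠ 0` with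
`∑ l, (τ j / (τ j ^ 2 + (l + 1) ^ 2)) * c l = 0` for all `j`.  Put `x j = τ j ^ 2` (distinct,
because the `τ j` are positive and distinct) and `m l = ((l : ℝ) + 1) ^ 2` (positive, distinct).
Dividing by `τ j > 0`: `∑ l, c l / (x j + m l) = 0`.  The real polynomial
`N = ∑ l, C (c l) * ∏ i ∈ univ.erase l, (X + C (m i))` has degree `< d` (each product has
`d - 1` factors: `Polynomial.natDegree_sum_le`, `natDegree_prod_le`, or `degree` versions) and
`N.eval (x j) = (∏ i, (x j + m i)) * ∑ l, c l / (x j + m l) = 0` for the `d` distinct points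
`x j`; hence `N = 0` (`Polynomial.eq_zero_of_natDegree_lt_card_of_eval_eq_zero` with the
injective `x`, or `Polynomial.card_roots'`).  Evaluating at `-m l`: all terms with index `≠ l`
vanish (they contain the factor `X + C (m l)`), so `c l * ∏ i ≠ l, (m i - m l) = 0` and
`c l = 0` because `m i ≠ m l` for `i ≠ l`.  So `c = 0`, a contradiction.
-/

namespace Vale.Agent.H97.FO

open scoped BigOperators

/-- The matrix of the atoms at distinct positive points is invertible. -/
theorem fo_cauchy (d : ℕ) (τ : Fin d → ℝ) (hτ : ∀ j, 0 < τ j) (hinj : Function.Injective τ) :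
    (Matrix.of fun j l : Fin d => fk (τ j) (((l : ℕ) : ℝ) + 1)).det ≠ 0 := by
  classical
  intro hdet
  obtain ⟨c, hc0, hc⟩ := Matrix.exists_mulVec_eq_zero_iff.2 hdet
  apply hc0
  rcases Nat.eq_zero_or_pos d with hd0 | hd
  · subst hd0
    funext l
    exact l.elim0
  have hmpos : ∀ l : Fin d, (0 : ℝ) < (((l : ℕ) : ℝ) + 1) ^ 2 := fun l => by positivity
  have hminj : ∀ i l : Fin d, i ≠ l → (((i : ℕ) : ℝ) + 1) ^ 2 ≠ (((l : ℕ) : ℝ) + 1) ^ 2 := by
    intro i l hil h
    have h1 : (0 : ℝ) < ((i : ℕ) : ℝ) + 1 := by positivity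
    have h2 : (0 : ℝ) < ((l : ℕ) : ℝ) + 1 := by positivity
    have h3 : ((((i : ℕ) : ℝ) + 1) - (((l : ℕ) : ℝ) + 1)) * ((((i : ℕ) : ℝ) + 1) + (((l : ℕ) : ℝ) + 1)) = 0 := by
      linear_combination h
    have h4 : (((i : ℕ) : ℝ) + 1) - (((l : ℕ) : ℝ) + 1) = 0 :=
      (mul_eq_zero.1 h3).resolve_right (by positivity)
    apply hil
    apply Fin.ext
    have h5 : ((i : ℕ) : ℝ) = ((l : ℕ) : ℝ) := by linarith
    exact_mod_cast h5
  have hxinj : Function.Injective (fun j : Fin d => τ j ^ 2) := by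
    intro j k h
    simp only at h
    have h3 : (τ j - τ k) * (τ j + τ k) = 0 := by linear_combination h
    have hpos : 0 < τ j + τ k := add_pos (hτ j) (hτ k)
    have h4 : τ j - τ k = 0 := (mul_eq_zero.1 h3).resolve_right hpos.ne'
    exact hinj (by linarith)
  have heval : ∀ j, (∑ l : Fin d, Polynomial.C (c l) *
      ∏ i ∈ Finset.univ.erase l, (Polynomial.X + Polynomial.C ((((i : ℕ) : ℝ) + 1) ^ 2))).eval
        (τ j ^ 2) = 0 := by
    intro j
    have hj := congrFun hc j
    simp only [Matrix.mulVec, dotProduct, Matrix.of_apply, Pi.zero_apply] at hj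
    rw [Polynomial.eval_finsetSum]
    simp only [Polynomial.eval_mul, Polynomial.eval_C, Polynomial.eval_prod, Polynomial.eval_add,
      Polynomial.eval_X]
    have hterm : ∀ l : Fin d, c l * ∏ i ∈ Finset.univ.erase l, (τ j ^ 2 + (((i : ℕ) : ℝ) + 1) ^ 2)
        = (∏ i : Fin d, (τ j ^ 2 + (((i : ℕ) : ℝ) + 1) ^ 2)) / τ j
          * (fk (τ j) (((l : ℕ) : ℝ) + 1) * c l) := by
      intro l
      rw [← Finset.mul_prod_erase Finset.univ (fun i : Fin d => τ j ^ 2 + (((i : ℕ) : ℝ) + 1) ^ 2)
        (Finset.mem_univ l)]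
      unfold fk
      have h1 : τ j ^ 2 + (((l : ℕ) : ℝ) + 1) ^ 2 ≠ 0 := by
        have := hmpos l
        positivity
      have h2 : τ j ≠ 0 := (hτ j).ne'
      field_simp
    rw [Finset.sum_congr rfl (fun l _ => hterm l), ← Finset.mul_sum, hj, mul_zero]
  have hdeg : (∑ l : Fin d, Polynomial.C (c l) *
      ∏ i ∈ Finset.univ.erase l, (Polynomial.X + Polynomial.C ((((i : ℕ) : ℝ) + 1) ^ 2))).natDegree
        < Fintype.card (Fin d) := by
    rw [Fintype.card_fin]
    have hle : (∑ l : Fin d, Polynomial.C (c l) *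
        ∏ i ∈ Finset.univ.erase l, (Polynomial.X + Polynomial.C ((((i : ℕ) : ℝ) + 1) ^ 2))).natDegree
          ≤ d - 1 := by
      apply Polynomial.natDegree_sum_le_of_forall_le
      intro l _
      refine (Polynomial.natDegree_C_mul_le _ _).trans ?_
      refine (Polynomial.natDegree_prod_le _ _).trans ?_
      have h1 : ∀ i ∈ Finset.univ.erase l,
          (Polynomial.X + Polynomial.C ((((i : ℕ) : ℝ) + 1) ^ 2)).natDegree = 1 :=
        fun i _ => Polynomial.natDegree_X_add_C _
      rw [Finset.sum_congr rfl h1]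
      simp
    omega
  have hN0 := Polynomial.eq_zero_of_natDegree_lt_card_of_eval_eq_zero _ hxinj heval hdeg
  funext l
  have h1 : (∑ l : Fin d, Polynomial.C (c l) *
      ∏ i ∈ Finset.univ.erase l, (Polynomial.X + Polynomial.C ((((i : ℕ) : ℝ) + 1) ^ 2))).eval
        (-((((l : ℕ) : ℝ) + 1) ^ 2)) = 0 := by
    rw [hN0]
    simp
  rw [Polynomial.eval_finsetSum] at h1
  simp only [Polynomial.eval_mul, Polynomial.eval_C, Polynomial.eval_prod, Polynomial.eval_add,
    Polynomial.eval_X] at h1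
  rw [Finset.sum_eq_single l] at h1
  · rcases mul_eq_zero.1 h1 with h | h
    · exact h
    · exfalso
      rw [Finset.prod_eq_zero_iff] at h
      obtain ⟨i, hi, hz⟩ := h
      have hil : i ≠ l := Finset.ne_of_mem_erase hi
      exact hminj i l hil (by linarith)
  · intro l' _ hl'
    have h2 : ∏ i ∈ Finset.univ.erase l',
        (-((((l : ℕ) : ℝ) + 1) ^ 2) + (((i : ℕ) : ℝ) + 1) ^ 2) = 0 :=
      Finset.prod_eq_zero (Finset.mem_erase.2 ⟨hl'.symm, Finset.mem_univ l⟩) (by ring)
    rw [h2, mul_zero]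
  · intro h
    exact absurd (Finset.mem_univ l) h

end Vale.Agent.H97.FO
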