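import Vale.Agent.H97.FO.Lin
import Vale.Agent.H97.FO.Cauchy

/-!
# Foster sums: rational coordinates in the field of a root (support for P058, project FO)

TASK FO-6.  Prove `fo_alg` (keep the statement unchanged; helper lemmas with fresh names starting
`fo6_` inside this file).  Black boxes (may still be open): `fo_lin` (FO/Lin.lean), `fo_cauchy`
(FO/Cauchy.lean); `fk_map` (FO/Defs.lean, proved).

`p` is an irreducible rational polynomial of degree `d ≥ 1` and `t j` (`j : Fin d`) are `d`
distinct real roots of `p`, all in `(0, 1)`.  Take `K = AdjoinRoot p` (a field: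
`haveI : Fact (Irreducible p) := ⟨hp⟩`, then `inferInstance`), `x = AdjoinRoot.root p`,
`σ j = AdjoinRoot.lift (algebraMap ℚ ℝ) (t j) h` (`AdjoinRoot.lift_root`; `h` from `ht j`,
`Polynomial.aeval_def`).

* `finrank ℚ (AdjoinRoot p) = d`: `(AdjoinRoot.powerBasis hp.ne_zero).finrank` and
  `AdjoinRoot.powerBasis_dim`; finite-dimensional from the power basis
  (`PowerBasis.finite`) .
* Each `σ j` is `ℚ`-linear: `(σ j).toRatAlgHom.toLinearMap`, or build the linear map by hand
  with `map_rat_smul`.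
* `g l = fk (x / (1 - x)) ((l : K) + 1)` for `l : Fin d`;
  `σ j (g l) = fk (t j / (1 - t j)) ((l : ℝ) + 1)` by `fk_map`, `map_div₀`, `map_sub`, `map_one`,
  `map_add`, `map_natCast`, `AdjoinRoot.lift_root`.
* `τ j = t j / (1 - t j)` is positive and `τ` is injective (`t ↦ t / (1 - t)` is injective on
  `(0, 1)`: `t / (1 - t) = t' / (1 - t')` gives `t (1 - t') = t' (1 - t)`, so `t = t'`);
  `fo_cauchy d τ` gives the determinant hypothesis of `fo_lin` (the two matrices are equal
  entrywise: rewrite with `Matrix.of` and `funext`, or `congrArg`).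
* `fo_lin` gives `C` and, for every `e`, `ε : Fin d → ℚ` with `e = ∑ l, ε l • g l`; extend by
  `ε' l = if h : l < d then ε ⟨l, h⟩ else 0`; `Finset.sum_range` turns the sum over
  `Finset.range d` into the sum over `Fin d`; `ε l • g l = (ε l : K) * g l` is `Rat.smul_def`.
-/

namespace Vale.Agent.H97.FO

open scoped BigOperators
open Polynomial

/-- In the field generated by a root of `p`, every element is a rational combination of the
atoms, with coefficients bounded by its values at the real roots. -/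
theorem fo_alg (p : ℚ[X]) (hp : Irreducible p) (d : ℕ) (hd : p.natDegree = d) (hd0 : 0 < d)
    (t : Fin d → ℝ) (ht : ∀ j, aeval (t j) p = 0) (hinj : Function.Injective t)
    (h01 : ∀ j, 0 < t j ∧ t j < 1) :
    ∃ (K : Type) (_ : Field K) (x : K) (σ : Fin d → K →+* ℝ) (C : ℝ), 0 < C ∧
      (∀ j, σ j x = t j) ∧
      ∀ e : K, ∃ ε : ℕ → ℚ,
        e = ∑ l ∈ Finset.range d, (ε l : K) * fk (x / (1 - x)) ((l : K) + 1) ∧
          ∀ B : ℝ, (∀ j, |σ j e| < B) → ∀ l, l < d → |(ε l : ℝ)| < C * B := by
  have : Fact (Irreducible p) := ⟨hp⟩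
  have hroot : ∀ j, p.eval₂ (algebraMap ℚ ℝ) (t j) = 0 := fun j => by
    have h := ht j
    rwa [Polynomial.aeval_def] at h
  let σ : Fin d → AdjoinRoot p →+* ℝ := fun j =>
    AdjoinRoot.lift (algebraMap ℚ ℝ) (t j) (hroot j)
  have hσx : ∀ j, σ j (AdjoinRoot.root p) = t j := fun j => AdjoinRoot.lift_root (hroot j)
  let σL : Fin d → AdjoinRoot p →ₗ[ℚ] ℝ := fun j => (σ j).toRatAlgHom.toLinearMap
  have hσL : ∀ j e, σL j e = σ j e := fun j e => rfl
  have : FiniteDimensional ℚ (AdjoinRoot p) := (AdjoinRoot.powerBasis hp.ne_zero).finite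
  have hfin : Module.finrank ℚ (AdjoinRoot p) = d := by
    rw [(AdjoinRoot.powerBasis hp.ne_zero).finrank, AdjoinRoot.powerBasis_dim, hd]
  let g : Fin d → AdjoinRoot p := fun l =>
    fk (AdjoinRoot.root p / (1 - AdjoinRoot.root p)) (((l : ℕ) : AdjoinRoot p) + 1)
  let τ : Fin d → ℝ := fun j => t j / (1 - t j)
  have hτpos : ∀ j, 0 < τ j := fun j => div_pos (h01 j).1 (by linarith [(h01 j).2])
  have hτinj : Function.Injective τ := by
    intro i j hij
    apply hinj
    have h1 : (1 - t i) ≠ 0 := by linarith [(h01 i).2]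
    have h2 : (1 - t j) ≠ 0 := by linarith [(h01 j).2]
    have h3 : t i / (1 - t i) = t j / (1 - t j) := hij
    rw [div_eq_div_iff h1 h2] at h3
    linarith
  have hσg : ∀ j l, σL j (g l) = fk (τ j) (((l : ℕ) : ℝ) + 1) := by
    intro j l
    rw [hσL]
    simp only [g, τ, fk_map, map_div₀, map_sub, map_one, map_add, map_natCast, hσx]
  have hdet : (Matrix.of fun j l : Fin d => σL j (g l)).det ≠ 0 := by
    have h := fo_cauchy d τ hτpos hτinj
    have h2 : (Matrix.of fun j l : Fin d => σL j (g l))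
        = Matrix.of fun j l : Fin d => fk (τ j) (((l : ℕ) : ℝ) + 1) := by
      ext j l
      simp only [Matrix.of_apply]
      exact hσg j l
    rw [h2]
    exact h
  obtain ⟨C, hC, hlin⟩ := fo_lin d hd0 hfin σL g hdet
  refine ⟨AdjoinRoot p, inferInstance, AdjoinRoot.root p, σ, C, hC, hσx, fun e => ?_⟩
  obtain ⟨ε, he, hB⟩ := hlin e
  refine ⟨fun l => if h : l < d then ε ⟨l, h⟩ else 0, ?_, ?_⟩
  · rw [Finset.sum_range]
    conv_lhs => rw [he]
    refine Finset.sum_congr rfl (fun l _ => ?_)
    beta_reduce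
    rw [dif_pos l.2, Rat.smul_def]
  · intro B hBj l hl
    simp only [dif_pos hl]
    exact hB B hBj ⟨l, hl⟩

end Vale.Agent.H97.FO
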