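import Vale.Agent.H97.FO.Defs

/-!
# Foster sums: the cell inequality and uniform Riemann sums (support for P058, project FO)

TASK FO-1.  Prove `fo_cell`, `fo_uni`, `fo_tail` (keep the statements unchanged; helper lemmas
with fresh names starting `fo1_` inside this file).  Only Mathlib and `fk` are needed
(`fk τ s = τ / (τ ^ 2 + s ^ 2)`, unfold it).

* `fo_cell`: if `a = b` both sides are `0`.  If `a < b`: the function `F s = arctan (s / τ)` has
  derivative `F' s = τ / (τ ^ 2 + s ^ 2)` (`Real.hasDerivAt_arctan`, chain rule), so by the mean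
  value theorem (`exists_hasDerivAt_eq_slope` or `exists_deriv_eq_slope`) there is `c` in
  `(a, b)` with `arctan (b / τ) - arctan (a / τ) = (b - a) * (τ / (τ ^ 2 + c ^ 2))`.  Both
  `τ / (τ ^ 2 + c ^ 2)` and `τ / (τ ^ 2 + s ^ 2)` lie in
  `[τ / (τ ^ 2 + b ^ 2), τ / (τ ^ 2 + a ^ 2)]`, and
  `τ / (τ ^ 2 + a ^ 2) - τ / (τ ^ 2 + b ^ 2) = τ (b ^ 2 - a ^ 2) / ((τ ^ 2 + a ^ 2) (τ ^ 2 + b ^ 2))
  ≤ (b ^ 2 - a ^ 2) / τ ^ 3`.
* `fo_uni`: the cells `c f = A + (B - A) * f / P`, `f ≤ P`; `c 0 = A`, `c P = B`, the node of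
  the cell `f` is `c (f + 1)` (note `((f + 1 : ℕ) : ℝ) = (f : ℝ) + 1`).  Telescoping
  (`Finset.sum_range_sub`) `∑ f < P, (arctan (c (f + 1) / τ) - arctan (c f / τ))` is the
  difference of the two `arctan`, `fo_cell` for each cell (with `s = b = c (f + 1)`,
  `b - a = (B - A) / P`), `Finset.abs_sum_le_sum_abs`, and the telescoping sum
  `∑ f < P, (c (f + 1) ^ 2 - c f ^ 2) = B ^ 2 - A ^ 2`.
* `fo_tail`: `arctan (S / τ) = π / 2 - arctan (τ / S)` (`Real.arctan_inv_of_pos`), so the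
  quantity is `2 / π * arctan (τ / S)`, which is `≥ 0` and `≤ 2 / π * (τ / S) ≤ τ / S`
  (`arctan x ≤ x` for `x ≥ 0`: from `fo_cell` with `a = s = 0`, `τ = 1`, or from Mathlib; and
  `2 / π ≤ 1` since `π > 3`).
-/

namespace Vale.Agent.H97.FO

open scoped BigOperators

lemma fo1_hasDeriv (τ : ℝ) (hτ : 0 < τ) (x : ℝ) :
    HasDerivAt (fun s : ℝ => Real.arctan (s / τ)) (fk τ x) x := by
  have h1 : HasDerivAt (fun s : ℝ => s / τ) (1 / τ) x := (hasDerivAt_id x).div_const τ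
  have h2 := (Real.hasDerivAt_arctan (x / τ)).comp x h1
  have h3 : 1 / (1 + (x / τ) ^ 2) * (1 / τ) = fk τ x := by
    unfold fk
    have hτ' : τ ≠ 0 := hτ.ne'
    have h4 : τ ^ 2 + x ^ 2 ≠ 0 := by positivity
    have h5 : 1 + (x / τ) ^ 2 ≠ 0 := by positivity
    field_simp
  rw [h3] at h2
  exact h2

lemma fo1_anti (τ x y : ℝ) (hτ : 0 < τ) (hx : 0 ≤ x) (hxy : x ≤ y) : fk τ y ≤ fk τ x := by
  unfold fk
  apply div_le_div_of_nonneg_left hτ.le (by positivity)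
  have h1 : x ^ 2 ≤ y ^ 2 := pow_le_pow_left₀ hx hxy 2
  linarith

lemma fo1_diff (τ a b : ℝ) (hτ : 0 < τ) (ha : 0 ≤ a) (hab : a ≤ b) :
    fk τ a - fk τ b ≤ (b ^ 2 - a ^ 2) / τ ^ 3 := by
  unfold fk
  have h1 : a ^ 2 ≤ b ^ 2 := pow_le_pow_left₀ ha hab 2
  have h2 : τ / (τ ^ 2 + a ^ 2) - τ / (τ ^ 2 + b ^ 2)
      = τ * (b ^ 2 - a ^ 2) / ((τ ^ 2 + a ^ 2) * (τ ^ 2 + b ^ 2)) := by
    have e1 : τ ^ 2 + a ^ 2 ≠ 0 := by positivity
    have e2 : τ ^ 2 + b ^ 2 ≠ 0 := by positivity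
    field_simp
    ring
  have h3 : (b ^ 2 - a ^ 2) / τ ^ 3 = τ * (b ^ 2 - a ^ 2) / (τ ^ 2 * τ ^ 2) := by
    have hτ' : τ ≠ 0 := hτ.ne'
    field_simp
  rw [h2, h3]
  apply div_le_div_of_nonneg_left (mul_nonneg hτ.le (by linarith)) (by positivity)
  have h4 : τ ^ 2 ≤ τ ^ 2 + a ^ 2 := by nlinarith [sq_nonneg a]
  have h5 : τ ^ 2 ≤ τ ^ 2 + b ^ 2 := by nlinarith [sq_nonneg b]
  exact mul_le_mul h4 h5 (by positivity) (by positivity)

lemma fo1_arctan_le (x : ℝ) (hx : 0 ≤ x) : Real.arctan x ≤ x := by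
  rcases hx.eq_or_lt with rfl | hpos
  · simp
  · obtain ⟨c, _, hceq⟩ := exists_hasDerivAt_eq_slope Real.arctan (fun x => 1 / (1 + x ^ 2)) hpos
      Real.continuous_arctan.continuousOn (fun x _ => Real.hasDerivAt_arctan x)
    rw [Real.arctan_zero, sub_zero, sub_zero] at hceq
    have h1 : 1 / (1 + c ^ 2) ≤ 1 := by
      rw [div_le_one (by positivity)]
      nlinarith [sq_nonneg c]
    rw [hceq, div_le_one hpos] at h1
    exact h1

/-- The cell inequality. -/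
theorem fo_cell (τ a b s : ℝ) (hτ : 0 < τ) (ha : 0 ≤ a) (hab : a ≤ b) (has : a ≤ s)
    (hsb : s ≤ b) :
    |Real.arctan (b / τ) - Real.arctan (a / τ) - (b - a) * fk τ s| ≤
      (b - a) * (b ^ 2 - a ^ 2) / τ ^ 3 := by
  rcases hab.eq_or_lt with rfl | hlt
  · simp
  · obtain ⟨c, hc, hceq⟩ := exists_hasDerivAt_eq_slope (fun s : ℝ => Real.arctan (s / τ))
      (fun x => fk τ x) hlt
      (fun x _ => (fo1_hasDeriv τ hτ x).continuousAt.continuousWithinAt)
      (fun x _ => fo1_hasDeriv τ hτ x)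
    have hba : 0 < b - a := sub_pos.2 hlt
    have hFb : Real.arctan (b / τ) - Real.arctan (a / τ) = (b - a) * fk τ c := by
      rw [hceq]
      field_simp
    rw [hFb, ← mul_sub, abs_mul, abs_of_pos hba, mul_div_assoc]
    apply mul_le_mul_of_nonneg_left _ hba.le
    have hc0 : 0 ≤ c := ha.trans hc.1.le
    have h1 := fo1_anti τ a c hτ ha hc.1.le
    have h2 := fo1_anti τ c b hτ hc0 hc.2.le
    have h3 := fo1_anti τ a s hτ ha has
    have h4 := fo1_anti τ s b hτ (ha.trans has) hsb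
    have h5 := fo1_diff τ a b hτ ha hab
    rw [abs_le]
    constructor <;> linarith

/-- The uniform Riemann sum with `P` cells on `[A, B]` (right ends as nodes). -/
theorem fo_uni (τ A B : ℝ) (hτ : 0 < τ) (hA : 0 ≤ A) (hAB : A ≤ B) (P : ℕ) (hP : 0 < P) :
    |Real.arctan (B / τ) - Real.arctan (A / τ) -
        ∑ f ∈ Finset.range P,
          ((B - A) / (P : ℝ)) * fk τ (A + (B - A) * ((f : ℝ) + 1) / (P : ℝ))| ≤
      ((B - A) / (P : ℝ)) * (B ^ 2 - A ^ 2) / τ ^ 3 := by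
  have hP' : (0 : ℝ) < P := by exact_mod_cast hP
  obtain ⟨c, hc⟩ : ∃ c : ℕ → ℝ, ∀ f, c f = A + (B - A) * (f : ℝ) / (P : ℝ) := ⟨_, fun _ => rfl⟩
  have hc0 : c 0 = A := by rw [hc]; simp
  have hcP : c P = B := by rw [hc]; field_simp; ring
  have hw : 0 ≤ (B - A) / (P : ℝ) := div_nonneg (sub_nonneg.2 hAB) hP'.le
  have hstep : ∀ f, c (f + 1) - c f = (B - A) / (P : ℝ) := by
    intro f
    rw [hc, hc]
    push_cast
    field_simp
    ring
  have hnode : ∀ f : ℕ, A + (B - A) * ((f : ℝ) + 1) / (P : ℝ) = c (f + 1) := by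
    intro f
    rw [hc]
    push_cast
    rfl
  have hcnn : ∀ f, 0 ≤ c f := by
    intro f
    rw [hc]
    exact add_nonneg hA (div_nonneg (mul_nonneg (sub_nonneg.2 hAB) (Nat.cast_nonneg f)) hP'.le)
  have hmono : ∀ f, c f ≤ c (f + 1) := by
    intro f
    have h1 := hstep f
    linarith
  have htel : Real.arctan (B / τ) - Real.arctan (A / τ)
      = ∑ f ∈ Finset.range P, (Real.arctan (c (f + 1) / τ) - Real.arctan (c f / τ)) := by
    rw [Finset.sum_range_sub (fun f => Real.arctan (c f / τ)), hcP, hc0]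
  have htel2 : ∑ f ∈ Finset.range P, (c (f + 1) ^ 2 - c f ^ 2) = B ^ 2 - A ^ 2 := by
    rw [Finset.sum_range_sub (fun f => c f ^ 2), hcP, hc0]
  simp_rw [hnode]
  rw [htel, ← Finset.sum_sub_distrib]
  calc |∑ f ∈ Finset.range P, (Real.arctan (c (f + 1) / τ) - Real.arctan (c f / τ)
          - (B - A) / (P : ℝ) * fk τ (c (f + 1)))|
      ≤ ∑ f ∈ Finset.range P, |Real.arctan (c (f + 1) / τ) - Real.arctan (c f / τ)
          - (B - A) / (P : ℝ) * fk τ (c (f + 1))| := Finset.abs_sum_le_sum_abs _ _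
    _ ≤ ∑ f ∈ Finset.range P, ((B - A) / (P : ℝ)) * (c (f + 1) ^ 2 - c f ^ 2) / τ ^ 3 := by
        apply Finset.sum_le_sum
        intro f _
        have h := fo_cell τ (c f) (c (f + 1)) (c (f + 1)) hτ (hcnn f) (hmono f) (hmono f) le_rfl
        rw [hstep f] at h
        exact h
    _ = ((B - A) / (P : ℝ)) * (B ^ 2 - A ^ 2) / τ ^ 3 := by
        rw [← htel2, Finset.mul_sum, Finset.sum_div]

/-- The tail. -/
theorem fo_tail (τ S : ℝ) (hτ : 0 < τ) (hS : 0 < S) :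
    0 ≤ 1 - 2 / Real.pi * Real.arctan (S / τ) ∧
      1 - 2 / Real.pi * Real.arctan (S / τ) ≤ τ / S := by
  have hx : 0 < τ / S := div_pos hτ hS
  have h1 : Real.arctan (S / τ) = Real.pi / 2 - Real.arctan (τ / S) := by
    rw [← Real.arctan_inv_of_pos hx, inv_div]
  have hpi : 0 < Real.pi := Real.pi_pos
  have h2 : 1 - 2 / Real.pi * Real.arctan (S / τ) = 2 / Real.pi * Real.arctan (τ / S) := by
    rw [h1]
    field_simp
    ring
  have h3 : 0 ≤ Real.arctan (τ / S) := Real.arctan_nonneg.2 hx.le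
  have h4 : Real.arctan (τ / S) ≤ τ / S := fo1_arctan_le _ hx.le
  have h5 : 2 / Real.pi ≤ 1 := by
    rw [div_le_one hpi]
    linarith [Real.pi_gt_three]
  have h6 : 0 ≤ 2 / Real.pi := by positivity
  rw [h2]
  constructor
  · exact mul_nonneg h6 h3
  · calc 2 / Real.pi * Real.arctan (τ / S) ≤ 1 * (τ / S) := mul_le_mul h5 h4 h3 (by norm_num)
      _ = τ / S := one_mul _

end Vale.Agent.H97.FO
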