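import Vale.Agent.H97.FO.Riemann

/-!
# Foster sums: the choice of the parameters (support for P058, project FO)

TASK FO-3.  Prove `fo_rie` (keep the statement unchanged; helper lemmas with fresh names
starting `fo3_` inside this file).  Black boxes (may still be open): `fo_riemann`
(FO/Riemann.lean), `fo_tail` (FO/Cell.lean).

Write `A = arctan (S / τ)`, `X = r * fo_atoms d τ + fo_R d r S P τ` and
`E = (d ^ 2 + S ^ 3) / (P τ ^ 3) + r ^ 2 (d (d + 1)) / τ ^ 3`, so `|A - X| ≤ E` (`fo_riemann`),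
`0 ≤ 1 - 2 / π * A ≤ τ / S` (`fo_tail`), `|X| ≤ A + E ≤ 2 + E` (`A < π / 2 < 2`,
`Real.arctan_lt_pi_div_two`, `Real.pi_lt_four`).  Then
`1 - q X = (1 - 2 / π * A) + 2 / π * (A - X) + (2 / π - q) * X`, and if `0 < 2 / π - q < ρ` then
`|1 - q X| ≤ τ / S + E + ρ (2 + E)` (`2 / π ≤ 1`).

Choice (in this order; all from `exists_rat_btwn`, `exists_nat_gt`):
1. a rational `r` with `0 < r < 1` and `r * (16 C d (d + 1) / τmin ^ 3) ≤ 1`, so that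
   `C * (r ^ 2 (d (d + 1)) / τ ^ 3) ≤ r / 16` for `τ ≥ τmin` (`1 / τ ^ 3 ≤ 1 / τmin ^ 3`);
2. a natural `S > d` with `16 C τmax / r ≤ S`, so that `C * (τ / S) ≤ r / 16` for `τ ≤ τmax`;
3. a natural `P ≥ 1` with `16 C (d ^ 2 + S ^ 3) / (r τmin ^ 3) ≤ P`, so that
   `C * ((d ^ 2 + S ^ 3) / (P τ ^ 3)) ≤ r / 16`; hence `C * E ≤ r / 8`, `E ≤ r / (8 C)`;
4. `ρ = r / (16 C (2 + r / (8 C)))`, so `C * ρ * (2 + E) ≤ r / 16`, and a rational `q` with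
   `max (1 / 2) (2 / π - ρ) < q < 2 / π` (`1 / 2 < 2 / π` because `π < 4`).
Then `C * |1 - q X| ≤ r / 16 + r / 8 + r / 16 = r / 4 < r / 2 < q r`.
-/

namespace Vale.Agent.H97.FO

open scoped BigOperators

/-- The final estimate, with all the parameters abstract. -/
theorem fo3_core (C r q ρ A X E1 E2 T : ℝ) (hC : 0 < C) (hr0 : 0 < r) (hρ0 : 0 < ρ)
    (hqhalf : 1 / 2 < q) (hq2 : q < 2 / Real.pi) (hqρ : 2 / Real.pi - ρ < q)
    (hrie : |A - X| ≤ E1 + E2) (ht1 : 0 ≤ 1 - 2 / Real.pi * A)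
    (ht2 : 1 - 2 / Real.pi * A ≤ T) (hAabs : |A| ≤ 2)
    (hCE1 : C * E1 ≤ r / 16) (hCE2 : C * E2 ≤ r / 16) (hCT : C * T ≤ r / 16)
    (hρ2 : C * (ρ * (2 + (E1 + E2))) ≤ r / 16) :
    C * |1 - q * X| < q * r := by
  have hXabs : |X| ≤ 2 + (E1 + E2) := by
    have h9 : |X| ≤ |A| + |A - X| := by
      have h := abs_sub_abs_le_abs_sub X A
      rw [abs_sub_comm X A] at h
      linarith
    linarith
  have hpi2 : 2 / Real.pi ≤ 1 := by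
    rw [div_le_one Real.pi_pos]
    linarith [Real.pi_gt_three]
  have hpi0 : 0 < 2 / Real.pi := by positivity
  have hsplit : 1 - q * X
      = (1 - 2 / Real.pi * A) + 2 / Real.pi * (A - X) + (2 / Real.pi - q) * X := by
    ring
  have t1 : |1 - 2 / Real.pi * A| ≤ T := by
    rw [abs_of_nonneg ht1]
    exact ht2
  have t2 : |2 / Real.pi * (A - X)| ≤ E1 + E2 := by
    rw [abs_mul, abs_of_pos hpi0]
    calc 2 / Real.pi * |A - X| ≤ 1 * |A - X| :=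
          mul_le_mul_of_nonneg_right hpi2 (abs_nonneg _)
      _ = |A - X| := one_mul _
      _ ≤ E1 + E2 := hrie
  have t3 : |(2 / Real.pi - q) * X| ≤ ρ * (2 + (E1 + E2)) := by
    rw [abs_mul, abs_of_pos (by linarith)]
    have h10 : 2 / Real.pi - q ≤ ρ := by linarith
    exact mul_le_mul h10 hXabs (abs_nonneg _) hρ0.le
  have habs : |1 - q * X| ≤ T + (E1 + E2) + ρ * (2 + (E1 + E2)) := by
    rw [hsplit]
    have a1 := abs_add_le ((1 - 2 / Real.pi * A) + 2 / Real.pi * (A - X))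
      ((2 / Real.pi - q) * X)
    have a2 := abs_add_le (1 - 2 / Real.pi * A) (2 / Real.pi * (A - X))
    linarith
  have hfin : (1 / 2) * r < q * r := mul_lt_mul_of_pos_right hqhalf hr0
  calc C * |1 - q * X|
      ≤ C * (T + (E1 + E2) + ρ * (2 + (E1 + E2))) :=
        mul_le_mul_of_nonneg_left habs hC.le
    _ = C * T + (C * E1 + C * E2) + C * (ρ * (2 + (E1 + E2))) := by ring
    _ ≤ r / 16 + (r / 16 + r / 16) + r / 16 := by linarith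
    _ < q * r := by linarith

/-- The choice of `r`. -/
theorem fo3_r (d : ℕ) (τmin C : ℝ) (h0 : 0 < τmin) (hC : 0 < C) :
    ∃ r : ℚ, (0 : ℝ) < (r : ℝ) ∧ (r : ℝ) < 1 ∧
      (r : ℝ) * (16 * C * ((d : ℝ) * ((d : ℝ) + 1))) ≤ τmin ^ 3 := by
  have hτ3 : 0 < τmin ^ 3 := by positivity
  obtain ⟨D, hD⟩ : ∃ D : ℝ, D = 16 * C * ((d : ℝ) * ((d : ℝ) + 1)) / τmin ^ 3 := ⟨_, rfl⟩
  have hD0 : 0 ≤ D := by rw [hD]; positivity
  obtain ⟨r, hr0', hrlt⟩ := exists_rat_btwn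
    (show (0 : ℝ) < min 1 (1 / (D + 1)) from lt_min one_pos (by positivity))
  have hr0 : (0 : ℝ) < (r : ℝ) := hr0'
  have hr1 : (r : ℝ) < 1 := lt_of_lt_of_le hrlt (min_le_left _ _)
  have hrD : (r : ℝ) * D ≤ 1 := by
    have h2 : (r : ℝ) < 1 / (D + 1) := lt_of_lt_of_le hrlt (min_le_right _ _)
    rw [lt_div_iff₀ (by linarith)] at h2
    have h3 : (r : ℝ) * (D + 1) = (r : ℝ) * D + (r : ℝ) := by ring
    linarith
  refine ⟨r, hr0, hr1, ?_⟩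
  rw [hD, ← mul_div_assoc, div_le_iff₀ hτ3] at hrD
  linarith

/-- The choice of `ρ`. -/
theorem fo3_rho (C r : ℝ) (hC : 0 < C) (hr0 : 0 < r) :
    ∃ ρ : ℝ, 0 < ρ ∧ C * (ρ * (2 + r / (8 * C))) = r / 16 := by
  have h8 : (0 : ℝ) < 2 + r / (8 * C) := by positivity
  refine ⟨r / (16 * C * (2 + r / (8 * C))), by positivity, ?_⟩
  have hC' : C ≠ 0 := hC.ne'
  have h8' : 2 + r / (8 * C) ≠ 0 := h8.ne'
  calc C * (r / (16 * C * (2 + r / (8 * C))) * (2 + r / (8 * C)))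
      = r * (C * (2 + r / (8 * C))) / (16 * (C * (2 + r / (8 * C)))) := by ring
    _ = r / 16 := by
        rw [mul_div_mul_right _ _ (mul_ne_zero hC' h8')]

/-- The parameters: a positive rational combination of the kernels (atoms with the weight
`q r`, the fine part with the weight `q`) whose error at every `τ` in `[τmin, τmax]` is much
smaller than the weight of the atoms. -/
theorem fo_rie (d : ℕ) (τmin τmax C : ℝ) (h0 : 0 < τmin) (h1 : τmin ≤ τmax) (hC : 0 < C) :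
    ∃ (q r : ℚ) (S P : ℕ), 0 < q ∧ 0 < r ∧ r < 1 ∧ d < S ∧ 0 < P ∧
      ∀ τ : ℝ, τmin ≤ τ → τ ≤ τmax →
        C * |1 - (q : ℝ) * ((r : ℝ) * fo_atoms d τ + fo_R d (r : ℝ) S P τ)| <
          (q : ℝ) * (r : ℝ) := by
  have hτ3 : 0 < τmin ^ 3 := by positivity
  -- step 1: the rational `r`
  obtain ⟨r, hr0, hr1, h5⟩ := fo3_r d τmin C h0 hC
  -- step 2: the natural `S`
  obtain ⟨S, hS⟩ := exists_nat_gt (max (d : ℝ) (16 * C * τmax / (r : ℝ)))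
  have hSd : (d : ℝ) < (S : ℝ) := lt_of_le_of_lt (le_max_left _ _) hS
  have hSd' : d < S := by exact_mod_cast hSd
  have hS2 : 16 * C * τmax / (r : ℝ) < (S : ℝ) := lt_of_le_of_lt (le_max_right _ _) hS
  have hS0 : (0 : ℝ) < (S : ℝ) := lt_of_le_of_lt (Nat.cast_nonneg d) hSd
  have hS3 : 16 * C * τmax ≤ (S : ℝ) * (r : ℝ) := by
    rw [div_lt_iff₀ hr0] at hS2
    linarith
  -- step 3: the natural `P`
  obtain ⟨P, hP⟩ := exists_nat_gt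
    (16 * C * ((d : ℝ) ^ 2 + (S : ℝ) ^ 3) / ((r : ℝ) * τmin ^ 3))
  have hnum0 : (0 : ℝ) ≤ 16 * C * ((d : ℝ) ^ 2 + (S : ℝ) ^ 3) / ((r : ℝ) * τmin ^ 3) := by
    positivity
  have hP0 : (0 : ℝ) < (P : ℝ) := lt_of_le_of_lt hnum0 hP
  have hP0' : 0 < P := by exact_mod_cast hP0
  have hP3 : 16 * C * ((d : ℝ) ^ 2 + (S : ℝ) ^ 3) ≤ (P : ℝ) * ((r : ℝ) * τmin ^ 3) := by
    rw [div_lt_iff₀ (by positivity)] at hP
    linarith
  -- step 4: the rational `q`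
  obtain ⟨ρ, hρ0, hρeq⟩ := fo3_rho C (r : ℝ) hC hr0
  have hpi : (1 : ℝ) / 2 < 2 / Real.pi := by
    rw [lt_div_iff₀ Real.pi_pos]
    linarith [Real.pi_lt_four]
  obtain ⟨q, hq1, hq2⟩ := exists_rat_btwn
    (show max ((1 : ℝ) / 2) (2 / Real.pi - ρ) < 2 / Real.pi from max_lt hpi (by linarith))
  have hqhalf : (1 : ℝ) / 2 < (q : ℝ) := lt_of_le_of_lt (le_max_left _ _) hq1
  have hqρ : 2 / Real.pi - ρ < (q : ℝ) := lt_of_le_of_lt (le_max_right _ _) hq1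
  have hq0 : (0 : ℝ) < (q : ℝ) := by linarith
  refine ⟨q, r, S, P, by exact_mod_cast hq0, by exact_mod_cast hr0, by exact_mod_cast hr1,
    hSd', hP0', ?_⟩
  intro τ hτ1 hτ2
  have hτ : 0 < τ := lt_of_lt_of_le h0 hτ1
  have hτ3' : τmin ^ 3 ≤ τ ^ 3 := pow_le_pow_left₀ h0.le hτ1 3
  have hτ30 : 0 < τ ^ 3 := by positivity
  have hrie := fo_riemann d (r : ℝ) S P τ hr0 hr1 hSd' hP0' hτ
  obtain ⟨ht1, ht2⟩ := fo_tail τ (S : ℝ) hτ hS0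
  have hE1nn : 0 ≤ ((d : ℝ) ^ 2 + (S : ℝ) ^ 3) / ((P : ℝ) * τ ^ 3) := by positivity
  have hE2nn : 0 ≤ (r : ℝ) ^ 2 * ((d : ℝ) * ((d : ℝ) + 1)) / τ ^ 3 := by positivity
  have hCE1 : C * (((d : ℝ) ^ 2 + (S : ℝ) ^ 3) / ((P : ℝ) * τ ^ 3)) ≤ (r : ℝ) / 16 := by
    rw [← mul_div_assoc, div_le_iff₀ (by positivity)]
    have h6 : (P : ℝ) * ((r : ℝ) * τmin ^ 3) ≤ (P : ℝ) * ((r : ℝ) * τ ^ 3) := by gcongr
    linarith
  have hCE2 : C * ((r : ℝ) ^ 2 * ((d : ℝ) * ((d : ℝ) + 1)) / τ ^ 3) ≤ (r : ℝ) / 16 := by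
    rw [← mul_div_assoc, div_le_iff₀ hτ30]
    have h7 := mul_le_mul_of_nonneg_left (h5.trans hτ3') hr0.le
    have e : C * ((r : ℝ) ^ 2 * ((d : ℝ) * ((d : ℝ) + 1)))
        = (r : ℝ) * ((r : ℝ) * (16 * C * ((d : ℝ) * ((d : ℝ) + 1)))) / 16 := by ring
    rw [e]
    linarith
  have hCtail : C * (τ / (S : ℝ)) ≤ (r : ℝ) / 16 := by
    rw [← mul_div_assoc, div_le_iff₀ hS0]
    have h8 := mul_le_mul_of_nonneg_left hτ2 hC.le
    linarith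
  have hE : ((d : ℝ) ^ 2 + (S : ℝ) ^ 3) / ((P : ℝ) * τ ^ 3)
      + (r : ℝ) ^ 2 * ((d : ℝ) * ((d : ℝ) + 1)) / τ ^ 3 ≤ (r : ℝ) / (8 * C) := by
    rw [le_div_iff₀ (by positivity)]
    have e : (((d : ℝ) ^ 2 + (S : ℝ) ^ 3) / ((P : ℝ) * τ ^ 3)
        + (r : ℝ) ^ 2 * ((d : ℝ) * ((d : ℝ) + 1)) / τ ^ 3) * (8 * C)
        = 8 * (C * (((d : ℝ) ^ 2 + (S : ℝ) ^ 3) / ((P : ℝ) * τ ^ 3)))
          + 8 * (C * ((r : ℝ) ^ 2 * ((d : ℝ) * ((d : ℝ) + 1)) / τ ^ 3)) := by ring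
    rw [e]
    linarith
  have hAabs : |Real.arctan ((S : ℝ) / τ)| ≤ 2 := by
    rw [abs_le]
    constructor
    · linarith [Real.neg_pi_div_two_lt_arctan ((S : ℝ) / τ), Real.pi_lt_four]
    · linarith [Real.arctan_lt_pi_div_two ((S : ℝ) / τ), Real.pi_lt_four]
  have hρ2 : C * (ρ * (2 + (((d : ℝ) ^ 2 + (S : ℝ) ^ 3) / ((P : ℝ) * τ ^ 3)
      + (r : ℝ) ^ 2 * ((d : ℝ) * ((d : ℝ) + 1)) / τ ^ 3))) ≤ (r : ℝ) / 16 := by
    rw [← hρeq]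
    gcongr
  exact fo3_core C (r : ℝ) (q : ℝ) ρ _ _ _ _ _ hC hr0 hρ0 hqhalf hq2 hqρ hrie ht1 ht2 hAabs
    hCE1 hCE2 hCtail hρ2

end Vale.Agent.H97.FO
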