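import Mathlib

/-!
# Foster sums: the real roots of a totally real minimal polynomial (support for P058, project FO)

TASK FO-7.  Prove `fo_roots` (keep the statement unchanged; helper lemmas with fresh names
starting `fo7_` inside this file).  Only Mathlib.

`p = minpoly ℚ mu` is irreducible (`minpoly.irreducible halg.isIntegral`), hence separable
(`Irreducible.separable`, characteristic `0`), and it splits over `ℂ` (`IsAlgClosed.splits`,
`IsAlgClosed.splits_codomain`), so `Fintype.card (p.rootSet ℂ) = p.natDegree`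
(`Polynomial.card_rootSet_eq_natDegree`).  For `z` in `p.rootSet ℂ`
(`Polynomial.mem_rootSet`: `aeval z p = 0`) the hypothesis gives `z.im = 0`, so
`z = ((z.re : ℝ) : ℂ)` (`Complex.ext`), and `aeval z.re p = 0` over `ℝ`
(`Polynomial.aeval_algebraMap_apply` / `aeval_algebraMap_eq_zero_iff` with `ℝ → ℂ`, or
`Complex.ofReal_injective` after `map_aeval_eq_aeval_map`); `z ↦ z.re` is injective on the root
set.  Compose with an equivalence `Fin p.natDegree ≃ p.rootSet ℂ`
(`(Fintype.equivFinOfCardEq h).symm`).  Finally `(mu : ℂ)` is a root (`minpoly.aeval` and the same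
transfer), which gives the index `j` with `t j = mu`.
-/

namespace Vale.Agent.H97.FO

open Polynomial

/-- If all complex conjugates of `mu` are real and lie in `(0, 1)`, the real roots of the
minimal polynomial can be listed as an injective family of length its degree, all in `(0, 1)`,
and `mu` is one of them. -/
theorem fo_roots (mu : ℝ) (halg : IsAlgebraic ℚ mu)
    (htot : ∀ z : ℂ, aeval z (minpoly ℚ mu) = 0 → z.im = 0 ∧ 0 < z.re ∧ z.re < 1) :
    ∃ t : Fin (minpoly ℚ mu).natDegree → ℝ, Function.Injective t ∧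
      (∀ j, aeval (t j) (minpoly ℚ mu) = 0 ∧ 0 < t j ∧ t j < 1) ∧ ∃ j, t j = mu := by
  have hirr : Irreducible (minpoly ℚ mu) := minpoly.irreducible halg.isIntegral
  have hne : minpoly ℚ mu ≠ 0 := hirr.ne_zero
  have hsep : (minpoly ℚ mu).Separable := hirr.separable
  have hsplit : ((minpoly ℚ mu).map (algebraMap ℚ ℂ)).Splits := IsAlgClosed.splits _
  have hcard : Fintype.card ((minpoly ℚ mu).rootSet ℂ) = (minpoly ℚ mu).natDegree :=
    Polynomial.card_rootSet_eq_natDegree hsep hsplit
  -- transfer of roots between the reals and the complex numbers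
  have htr : ∀ x : ℝ, aeval (x : ℂ) (minpoly ℚ mu) = 0 ↔ aeval x (minpoly ℚ mu) = 0 := by
    intro x
    have h := Polynomial.aeval_algebraMap_apply (A := ℝ) ℂ x (minpoly ℚ mu)
    have h' : aeval (x : ℂ) (minpoly ℚ mu) = ((aeval x (minpoly ℚ mu) : ℝ) : ℂ) := h
    rw [h']
    exact Complex.ofReal_eq_zero
  have hroot : ∀ z : (minpoly ℚ mu).rootSet ℂ, aeval (z : ℂ) (minpoly ℚ mu) = 0 :=
    fun z => ((Polynomial.mem_rootSet).mp z.2).2
  have hre : ∀ z : (minpoly ℚ mu).rootSet ℂ, ((z : ℂ).re : ℂ) = (z : ℂ) := by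
    intro z
    have h := (htot z (hroot z)).1
    apply Complex.ext
    · simp
    · simp [h]
  let e : Fin (minpoly ℚ mu).natDegree ≃ (minpoly ℚ mu).rootSet ℂ :=
    (Fintype.equivFinOfCardEq hcard).symm
  refine ⟨fun j => ((e j : ℂ)).re, ?_, ?_, ?_⟩
  · intro i j hij
    have h1 : ((e i : ℂ)) = (e j : ℂ) := by
      rw [← hre (e i), ← hre (e j)]
      exact congrArg (fun x : ℝ => (x : ℂ)) hij
    exact e.injective (Subtype.ext h1)
  · intro j
    refine ⟨?_, (htot _ (hroot (e j))).2.1, (htot _ (hroot (e j))).2.2⟩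
    rw [← htr, hre]
    exact hroot (e j)
  · have hmu : aeval (mu : ℂ) (minpoly ℚ mu) = 0 := (htr mu).mpr (minpoly.aeval ℚ mu)
    have hmem : (mu : ℂ) ∈ (minpoly ℚ mu).rootSet ℂ := (Polynomial.mem_rootSet).mpr ⟨hne, hmu⟩
    refine ⟨e.symm ⟨(mu : ℂ), hmem⟩, ?_⟩
    simp

end Vale.Agent.H97.FO
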