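import Vale.Agent.H97.FO.Alg
import Vale.Agent.H97.FO.Roots
import Vale.Agent.H97.FO.Rie

/-!
# Foster sums: the corrected Riemann sum (support for P058, project FO)

TASK FO-8.  Prove `fo_core` (keep the statement unchanged; helper lemmas with fresh names
starting `fo8_` inside this file).  Black boxes (may still be open): `fo_roots` (FO/Roots.lean),
`fo_alg` (FO/Alg.lean), `fo_rie` (FO/Rie.lean); proved: `fk_map`, `fo_atoms_map`, `fo_R_map`
(FO/Defs.lean).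

1. `p = minpoly ℚ mu`, irreducible (`minpoly.irreducible halg.isIntegral`), `d = p.natDegree`,
   `0 < d` (`minpoly.natDegree_pos`).  `fo_roots` gives `t : Fin d → ℝ` injective, roots in
   `(0, 1)`, and `j₀` with `t j₀ = mu`.
2. `fo_alg p _ d rfl _ t ..` gives `K`, `x`, `σ`, `C > 0` with `σ j x = t j`.
3. `τ j = t j / (1 - t j) > 0`.  Bounds without minima: `τmin = (∑ j, (τ j)⁻¹)⁻¹ ≤ τ j` and
   `τmax = ∑ j, τ j ≥ τ j` (`Finset.single_le_sum`), `0 < τmin ≤ τmax`.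
4. `fo_rie d τmin τmax C` gives `q r S P`.
5. `e = 1 - (q : K) * ((r : K) * fo_atoms d (x / (1 - x)) + fo_R d (r : K) S P (x / (1 - x)))`
   in `K`.  For every `j`:
   `σ j e = 1 - (q : ℝ) * ((r : ℝ) * fo_atoms d (τ j) + fo_R d (r : ℝ) S P (τ j))`
   (`map_sub`, `map_one`, `map_mul`, `map_add`, `map_ratCast`, `fo_atoms_map`, `fo_R_map`,
   `map_div₀`, and `σ j x = t j`).
6. `fo_alg` for this `e` gives `ε : ℕ → ℚ`; with `B = q * r / C`: `|σ j e| < B` by step 4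
   (`lt_div_iff₀`), so `|ε l| < C * B = q * r` for `l < d`, hence `0 < q * r + ε l` (cast to
   `ℝ`: `abs_lt`, `Rat.cast_pos` / `exact_mod_cast`).
7. Apply `σ j₀` to `e = ∑ l < d, (ε l : K) * fk (x / (1 - x)) ((l : K) + 1)`:
   the left side is step 5 with `τ j₀ = mu / (1 - mu)`, the right side is
   `∑ l < d, (ε l : ℝ) * fk (mu / (1 - mu)) ((l : ℝ) + 1)` (`map_sum`, `map_mul`, `map_ratCast`,
   `fk_map`, `map_natCast`).
-/

namespace Vale.Agent.H97.FO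

open scoped BigOperators
open Polynomial

/-- The core argument for an abstract number field with `d` real places. -/
theorem fo8_aux (mu : ℝ) (d : ℕ) (hd0 : 0 < d) (t : Fin d → ℝ)
    (ht : ∀ j, 0 < t j ∧ t j < 1) (j₀ : Fin d) (hj₀ : t j₀ = mu)
    (K : Type) [Field K] (x : K) (σ : Fin d → K →+* ℝ) (C : ℝ) (hC : 0 < C)
    (hσx : ∀ j, σ j x = t j)
    (hall : ∀ e : K, ∃ ε : ℕ → ℚ,
        e = ∑ l ∈ Finset.range d, (ε l : K) * fk (x / (1 - x)) ((l : K) + 1) ∧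
          ∀ B : ℝ, (∀ j, |σ j e| < B) → ∀ l, l < d → |(ε l : ℝ)| < C * B) :
    ∃ (S P : ℕ) (q r : ℚ) (ε : ℕ → ℚ), 0 < q ∧ 0 < r ∧ r < 1 ∧ d < S ∧ 0 < P ∧
      (∀ l, l < d → 0 < q * r + ε l) ∧
      1 - (q : ℝ) * ((r : ℝ) * fo_atoms d (mu / (1 - mu)) +
          fo_R d (r : ℝ) S P (mu / (1 - mu))) =
        ∑ l ∈ Finset.range d, (ε l : ℝ) * fk (mu / (1 - mu)) ((l : ℝ) + 1) := by
  have hne : Nonempty (Fin d) := ⟨⟨0, hd0⟩⟩
  -- the conjugates of `th`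
  obtain ⟨τ, hτdef⟩ : ∃ τ : Fin d → ℝ, ∀ j, τ j = t j / (1 - t j) := ⟨_, fun _ => rfl⟩
  have hτ : ∀ j, 0 < τ j := by
    intro j
    rw [hτdef]
    have h1 := (ht j).1
    have h2 := (ht j).2
    exact div_pos h1 (by linarith)
  have hsum_pos : 0 < ∑ j, (τ j)⁻¹ :=
    Finset.sum_pos (fun j _ => inv_pos.mpr (hτ j)) Finset.univ_nonempty
  have hmin_pos : 0 < (∑ j, (τ j)⁻¹)⁻¹ := inv_pos.mpr hsum_pos
  have hmin : ∀ j, (∑ j, (τ j)⁻¹)⁻¹ ≤ τ j := by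
    intro j
    have h1 : (τ j)⁻¹ ≤ ∑ j, (τ j)⁻¹ :=
      Finset.single_le_sum (f := fun j => (τ j)⁻¹) (fun i _ => (inv_pos.mpr (hτ i)).le)
        (Finset.mem_univ j)
    have h2 := inv_anti₀ (inv_pos.mpr (hτ j)) h1
    rwa [inv_inv] at h2
  have hmax : ∀ j, τ j ≤ ∑ j, τ j := by
    intro j
    exact Finset.single_le_sum (f := fun j => τ j) (fun i _ => (hτ i).le) (Finset.mem_univ j)
  have hminmax : (∑ j, (τ j)⁻¹)⁻¹ ≤ ∑ j, τ j := (hmin j₀).trans (hmax j₀)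
  obtain ⟨q, r, S, P, hq, hr, hr1, hdS, hP, hrie⟩ :=
    fo_rie d (∑ j, (τ j)⁻¹)⁻¹ (∑ j, τ j) C hmin_pos hminmax hC
  -- the error, as an element of the field
  obtain ⟨e, he⟩ : ∃ e : K, e = 1 - (q : K) * ((r : K) * fo_atoms d (x / (1 - x))
      + fo_R d (r : K) S P (x / (1 - x))) := ⟨_, rfl⟩
  have hσe : ∀ j, σ j e = 1 - (q : ℝ) * ((r : ℝ) * fo_atoms d (τ j)
      + fo_R d (r : ℝ) S P (τ j)) := by
    intro j
    rw [he, hτdef]
    simp only [map_sub, map_one, map_mul, map_add, map_ratCast, fo_atoms_map, fo_R_map,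
      map_div₀, hσx]
  obtain ⟨ε, hε, hbound⟩ := hall e
  have hB : ∀ j, |σ j e| < (q : ℝ) * (r : ℝ) / C := by
    intro j
    rw [hσe j, lt_div_iff₀ hC, mul_comm]
    exact hrie (τ j) (hmin j) (hmax j)
  have hpos : ∀ l, l < d → 0 < q * r + ε l := by
    intro l hl
    have h1 := hbound ((q : ℝ) * (r : ℝ) / C) hB l hl
    have h2 : C * ((q : ℝ) * (r : ℝ) / C) = (q : ℝ) * (r : ℝ) := by
      field_simp
    rw [h2] at h1
    have h3 := (abs_lt.mp h1).1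
    have h4 : (0 : ℝ) < (q : ℝ) * (r : ℝ) + (ε l : ℝ) := by linarith
    exact_mod_cast h4
  refine ⟨S, P, q, r, ε, hq, hr, hr1, hdS, hP, hpos, ?_⟩
  have h7 := congrArg (σ j₀) hε
  rw [hσe j₀, hτdef j₀, hj₀] at h7
  rw [h7]
  simp only [map_sum, map_mul, map_ratCast, fk_map, map_div₀, map_sub, map_one, map_add,
    map_natCast, hσx, hj₀]

/-- The corrected Riemann sum: an exact identity at `th = mu / (1 - mu)` in which the atoms
have the positive rational coefficients `q r + ε l`. -/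
theorem fo_core (mu : ℝ) (hm0 : 0 < mu) (hm1 : mu < 1) (halg : IsAlgebraic ℚ mu)
    (htot : ∀ z : ℂ, aeval z (minpoly ℚ mu) = 0 → z.im = 0 ∧ 0 < z.re ∧ z.re < 1) :
    ∃ (d S P : ℕ) (q r : ℚ) (ε : ℕ → ℚ), 0 < d ∧ 0 < q ∧ 0 < r ∧ r < 1 ∧ d < S ∧ 0 < P ∧
      (∀ l, l < d → 0 < q * r + ε l) ∧
      1 - (q : ℝ) * ((r : ℝ) * fo_atoms d (mu / (1 - mu)) +
          fo_R d (r : ℝ) S P (mu / (1 - mu))) =
        ∑ l ∈ Finset.range d, (ε l : ℝ) * fk (mu / (1 - mu)) ((l : ℝ) + 1) := by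
  have hint : IsIntegral ℚ mu := halg.isIntegral
  have hp : Irreducible (minpoly ℚ mu) := minpoly.irreducible hint
  have hd0 : 0 < (minpoly ℚ mu).natDegree := minpoly.natDegree_pos hint
  obtain ⟨t, hinj, ht, j₀, hj₀⟩ := fo_roots mu halg htot
  obtain ⟨K, instK, x, σ, C, hC, hσx, hall⟩ :=
    fo_alg (minpoly ℚ mu) hp (minpoly ℚ mu).natDegree rfl hd0 t (fun j => (ht j).1) hinj
      (fun j => (ht j).2)
  obtain ⟨S, P, q, r, ε, h⟩ :=
    fo8_aux mu (minpoly ℚ mu).natDegree hd0 t (fun j => (ht j).2) j₀ hj₀ K x σ C hC hσx hall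
  exact ⟨(minpoly ℚ mu).natDegree, S, P, q, r, ε, hd0, h⟩

end Vale.Agent.H97.FO
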