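import Mathlib

/-!
# Foster sums: definitions (support for P058, project FO of helper97)

Goal of the project FO: for a real algebraic `mu` in `(0, 1)` ALL of whose complex conjugates are
real and lie in `(0, 1)`, with `th = mu / (1 - mu)`, there are positive rationals `k i`, `n i`
with `∑ i, k i * th / (th ^ 2 + n i) = 1` (a positive rational Foster form of `1`).  With the merge
of two weighted single-kink structures (Vale/Agent/H80/GM/Merge.lean) this gives the structure
`∃ p, WAch mu 0 p` for every such `mu`, of every degree.

Idea: `1 = (2 / π) ∫₀^∞ τ / (τ ^ 2 + s ^ 2) ds` for every `τ > 0`.  A Riemann sum with rational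
nodes and weights has a small error at all conjugates `τ j` of `th`; the error is an element of
the field `ℚ(mu)`, so it is a RATIONAL combination of the `d` atoms `τ / (τ ^ 2 + (l + 1) ^ 2)`,
`l < d`, with coefficients bounded by a constant times the error; the atoms are present in the
Riemann sum with a much larger weight, so all coefficients stay positive.

This file: the kernel `fk`, the atoms `fo_atoms` and the fine part `fo_R` of the Riemann sum, over
an arbitrary field, and their compatibility with ring homomorphisms.
-/

namespace Vale.Agent.H97.FO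

open scoped BigOperators

section defs

variable {F : Type*} [Field F]

/-- The kernel `τ / (τ ^ 2 + s ^ 2)`. -/
def fk (τ s : F) : F := τ / (τ ^ 2 + s ^ 2)

/-- The atoms: the sum of the kernels at the nodes `1, …, d`. -/
def fo_atoms (d : ℕ) (τ : F) : F := ∑ l ∈ Finset.range d, fk τ ((l : F) + 1)

/-- The fine part of the Riemann sum: `P` equal cells in each interval `[l, l + 1 - r]`, `l < d`,
and `P` equal cells in `[d, S]`, each cell with its right end as node and its length as
weight. -/
def fo_R (d : ℕ) (r : F) (S P : ℕ) (τ : F) : F :=
  (∑ l ∈ Finset.range d, ∑ f ∈ Finset.range P,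
      ((1 - r) / (P : F)) * fk τ ((l : F) + (1 - r) * ((f : F) + 1) / (P : F))) +
    ∑ f ∈ Finset.range P,
      (((S : F) - (d : F)) / (P : F)) *
        fk τ ((d : F) + ((S : F) - (d : F)) * ((f : F) + 1) / (P : F))

end defs

section maps

variable {F G : Type*} [Field F] [Field G]

theorem fk_map (σ : F →+* G) (τ s : F) : σ (fk τ s) = fk (σ τ) (σ s) := by
  simp [fk, map_div₀]

theorem fo_atoms_map (σ : F →+* G) (d : ℕ) (τ : F) :
    σ (fo_atoms d τ) = fo_atoms d (σ τ) := by
  simp [fo_atoms, fk_map, map_sum]

theorem fo_R_map (σ : F →+* G) (d : ℕ) (r : F) (S P : ℕ) (τ : F) :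
    σ (fo_R d r S P τ) = fo_R d (σ r) S P (σ τ) := by
  simp [fo_R, fk_map, map_sum, map_div₀]

end maps

end Vale.Agent.H97.FO
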