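import Vale.Agent.H80.GM.Merge
import Vale.Agent.H80.GM.Ratio

/-!
# Foster sums: the weighted single-kink structures of the terms (support for P058, project FO)

In the coordinate `w = (1 + nu) / (1 - nu)` (so `nu = (w - 1) / (w + 1)`) and with
`th = mu / (1 - mu)`: `wach_ratio` (GM/Ratio.lean) gives the structures with `w = c * th` and
`w = c / th` for rational `c > 0`, `wach_merge` (GM/Merge.lean) the mean `(w₁ + w₂) / 2` and
`wach_neg` (Vale/Agent/H16/GQ/WAch.lean) the inverse `1 / w`.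

`FS mu w`: `w > 0` and for EVERY rational `c > 0` there is a structure with the value `c * w`.

TASK FO-10.  Prove `fs_term` and `fs_add` (keep the statements unchanged; helper lemmas with
fresh names starting `fo10_` inside this file).  Black boxes (may still be open): `wach_ratio`;
proved: `wach_merge`, `wach_neg`, `ge_congr` (Vale/Agent/H16/GQ/Edge.lean: rewriting the values).

* Helper `fo10_mean`: if `0 < w₁`, `0 < w₂`, `WAch mu ((w₁ - 1) / (w₁ + 1)) p₁` and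
  `WAch mu ((w₂ - 1) / (w₂ + 1)) p₂` then `∃ p, WAch mu (((w₁ + w₂) / 2 - 1) / ((w₁ + w₂) / 2 + 1)) p`:
  `wach_merge` with `nu i = (w i - 1) / (w i + 1)`; `2 - nu₁ - nu₂ = 2 / (w₁ + 1) + 2 / (w₂ + 1) > 0`
  and `(nu₁ (1 - nu₂) + nu₂ (1 - nu₁)) / (2 - nu₁ - nu₂) = ((w₁ + w₂) / 2 - 1) / ((w₁ + w₂) / 2 + 1)`
  (`field_simp`, `ring`).
* Helper `fo10_inv`: if `0 < w` and `WAch mu ((w - 1) / (w + 1)) p` then
  `∃ p', WAch mu ((1 / w - 1) / (1 / w + 1)) p'`: `wach_neg` and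
  `-((w - 1) / (w + 1)) = (1 / w - 1) / (1 / w + 1)`.
* `fs_add`: positivity is clear; for `c > 0`: `c * (x + y) = ((2 c) * x + (2 c) * y) / 2`, so
  `fo10_mean` for the structures of `x` and of `y` at the rational `2 * c` (`push_cast`).
* `fs_term`: `th = mu / (1 - mu) > 0`, so the term is positive.  For `c > 0` put
  `c₁ = 2 / (c * k)` and `c₂ = 2 * n / (c * k)` (positive rationals).  The first part of
  `wach_ratio mu hm0 hm1 c₁` has the value `(c₁ mu - (1 - mu)) / (c₁ mu + (1 - mu))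
  = (w₁ - 1) / (w₁ + 1)` with `w₁ = c₁ * th`; the second part of `wach_ratio mu hm0 hm1 c₂` has
  the value `(c₂ (1 - mu) - mu) / (c₂ (1 - mu) + mu) = (w₂ - 1) / (w₂ + 1)` with `w₂ = c₂ / th`
  (both by `field_simp`; `1 - mu > 0`).  `fo10_mean` gives `w = (w₁ + w₂) / 2
  = (th ^ 2 + n) / (c k th)`, and `fo10_inv` gives `1 / w = c * (k * (th / (th ^ 2 + n)))`.
-/

namespace Vale.Agent.H97.FO

open Vale.Agent.H16.Kite Vale.Agent.H80.GM

/-- `w > 0` and for every rational `c > 0` there is a weighted single-kink structure in a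
`2`-group with the value `c * w` in the coordinate `w = (1 + nu) / (1 - nu)`. -/
def FS (mu w : ℝ) : Prop :=
  0 < w ∧ ∀ c : ℚ, 0 < c → ∃ p : ℝ, WAch mu (((c : ℝ) * w - 1) / ((c : ℝ) * w + 1)) p

theorem fo10_mean {mu w₁ w₂ p₁ p₂ : ℝ} (h1 : 0 < w₁) (h2 : 0 < w₂)
    (a₁ : WAch mu ((w₁ - 1) / (w₁ + 1)) p₁) (a₂ : WAch mu ((w₂ - 1) / (w₂ + 1)) p₂) :
    ∃ p, WAch mu (((w₁ + w₂) / 2 - 1) / ((w₁ + w₂) / 2 + 1)) p := by
  have hu1 : w₁ + 1 ≠ 0 := by linarith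
  have hv1 : w₂ + 1 ≠ 0 := by linarith
  have e1 : 2 - (w₁ - 1) / (w₁ + 1) - (w₂ - 1) / (w₂ + 1) =
      (2 * w₁ + 2 * w₂ + 4) / ((w₁ + 1) * (w₂ + 1)) := by
    field_simp
    ring
  have hD : 2 - (w₁ - 1) / (w₁ + 1) - (w₂ - 1) / (w₂ + 1) ≠ 0 := by
    rw [e1]
    have hpos : 0 < (2 * w₁ + 2 * w₂ + 4) / ((w₁ + 1) * (w₂ + 1)) := by positivity
    exact hpos.ne'
  obtain ⟨p, hp⟩ := wach_merge a₁ a₂ hD
  refine ⟨p, ge_congr hp ?_ rfl⟩
  have e2 : (w₁ - 1) / (w₁ + 1) * (1 - (w₂ - 1) / (w₂ + 1)) +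
      (w₂ - 1) / (w₂ + 1) * (1 - (w₁ - 1) / (w₁ + 1)) =
      (2 * w₁ + 2 * w₂ - 4) / ((w₁ + 1) * (w₂ + 1)) := by
    field_simp
    ring
  have e3 : (w₁ + w₂) / 2 + 1 = (w₁ + w₂ + 2) / 2 := by ring
  have e4 : (w₁ + w₂) / 2 - 1 = (w₁ + w₂ - 2) / 2 := by ring
  have h5 : 2 * w₁ + 2 * w₂ + 4 ≠ 0 := by linarith
  have h6 : w₁ + w₂ + 2 ≠ 0 := by linarith
  rw [e1, e2, e3, e4]
  field_simp
  ring

theorem fo10_inv {mu w p : ℝ} (hw : 0 < w) (a : WAch mu ((w - 1) / (w + 1)) p) :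
    ∃ p', WAch mu ((1 / w - 1) / (1 / w + 1)) p' := by
  refine ⟨-p, ge_congr (wach_neg a) ?_ rfl⟩
  have hw0 : w ≠ 0 := hw.ne'
  have hw1 : w + 1 ≠ 0 := by linarith
  have h4 : 1 / w + 1 = (1 + w) / w := by
    field_simp
  have h5 : 1 / w - 1 = (1 - w) / w := by
    field_simp
  have h6 : (1 + w) ≠ 0 := by linarith
  rw [h4, h5]
  field_simp
  ring

/-- The terms `k * (th / (th ^ 2 + n))`, `th = mu / (1 - mu)`. -/
theorem fs_term (mu : ℝ) (hm0 : 0 < mu) (hm1 : mu < 1) (k n : ℚ) (hk : 0 < k) (hn : 0 < n) :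
    FS mu ((k : ℝ) * ((mu / (1 - mu)) / ((mu / (1 - mu)) ^ 2 + (n : ℝ)))) := by
  have h1m : 0 < 1 - mu := by linarith
  obtain ⟨th, hth⟩ : ∃ th : ℝ, th = mu / (1 - mu) := ⟨_, rfl⟩
  rw [← hth]
  have hth0 : 0 < th := by
    rw [hth]
    exact div_pos hm0 h1m
  have hk' : (0 : ℝ) < (k : ℝ) := by exact_mod_cast hk
  have hn' : (0 : ℝ) < (n : ℝ) := by exact_mod_cast hn
  refine ⟨by positivity, ?_⟩
  intro c hc
  have hc' : (0 : ℝ) < (c : ℝ) := by exact_mod_cast hc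
  have hc1 : (0 : ℚ) < 2 / (c * k) := by positivity
  have hc2 : (0 : ℚ) < 2 * n / (c * k) := by positivity
  obtain ⟨p₁, a1⟩ := (wach_ratio mu hm0 hm1 (2 / (c * k)) hc1).1
  obtain ⟨p₂, a2⟩ := (wach_ratio mu hm0 hm1 (2 * n / (c * k)) hc2).2
  obtain ⟨A, hA⟩ : ∃ A : ℝ, A = ((2 / (c * k) : ℚ) : ℝ) := ⟨_, rfl⟩
  obtain ⟨B, hB⟩ : ∃ B : ℝ, B = ((2 * n / (c * k) : ℚ) : ℝ) := ⟨_, rfl⟩
  rw [← hA] at a1
  rw [← hB] at a2
  have hAv : A = 2 / ((c : ℝ) * (k : ℝ)) := by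
    rw [hA]
    push_cast
    rfl
  have hBv : B = 2 * (n : ℝ) / ((c : ℝ) * (k : ℝ)) := by
    rw [hB]
    push_cast
    rfl
  have hA0 : 0 < A := by
    rw [hAv]
    positivity
  have hB0 : 0 < B := by
    rw [hBv]
    positivity
  have hmu0 : mu ≠ 0 := hm0.ne'
  have b1 : WAch mu ((A * th - 1) / (A * th + 1)) p₁ := by
    refine ge_congr a1 ?_ rfl
    have e1 : A * th - 1 = (A * mu - (1 - mu)) / (1 - mu) := by
      rw [hth]
      field_simp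
    have e2 : A * th + 1 = (A * mu + (1 - mu)) / (1 - mu) := by
      rw [hth]
      field_simp
    rw [e1, e2, div_div_div_cancel_right₀ h1m.ne']
  have b2 : WAch mu ((B / th - 1) / (B / th + 1)) p₂ := by
    refine ge_congr a2 ?_ rfl
    have e1 : B / th - 1 = (B * (1 - mu) - mu) / mu := by
      rw [hth]
      field_simp
    have e2 : B / th + 1 = (B * (1 - mu) + mu) / mu := by
      rw [hth]
      field_simp
    rw [e1, e2, div_div_div_cancel_right₀ hmu0]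
  obtain ⟨p, hp⟩ := fo10_mean (mul_pos hA0 hth0) (div_pos hB0 hth0) b1 b2
  have hw : 0 < (A * th + B / th) / 2 := by positivity
  obtain ⟨p', hp'⟩ := fo10_inv hw hp
  refine ⟨p', ge_congr hp' ?_ rfl⟩
  have e : 1 / ((A * th + B / th) / 2) =
      (c : ℝ) * ((k : ℝ) * (th / (th ^ 2 + (n : ℝ)))) := by
    rw [hAv, hBv]
    field_simp
  rw [e]

/-- Sums. -/
theorem fs_add (mu x y : ℝ) (hx : FS mu x) (hy : FS mu y) : FS mu (x + y) := by
  obtain ⟨hx0, hx⟩ := hx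
  obtain ⟨hy0, hy⟩ := hy
  refine ⟨by linarith, ?_⟩
  intro c hc
  have hc2 : (0 : ℚ) < 2 * c := by linarith
  obtain ⟨p₁, h1⟩ := hx (2 * c) hc2
  obtain ⟨p₂, h2⟩ := hy (2 * c) hc2
  have hcr : (0 : ℝ) < ((2 * c : ℚ) : ℝ) := by exact_mod_cast hc2
  obtain ⟨p, hp⟩ := fo10_mean (mul_pos hcr hx0) (mul_pos hcr hy0) h1 h2
  refine ⟨p, ge_congr hp ?_ rfl⟩
  have e : (((2 * c : ℚ) : ℝ) * x + ((2 * c : ℚ) : ℝ) * y) / 2 = (c : ℝ) * (x + y) := by
    push_cast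
    ring
  rw [e]

end Vale.Agent.H97.FO
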