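import Mathlib

/-!
# Foster sums: rational coordinates with a bound (support for P058, project FO)

TASK FO-4.  Prove `fo_lin` (keep the statement unchanged; helper lemmas with fresh names starting
`fo4_` inside this file).  Only Mathlib.

`V` is a rational vector space of dimension `d ≥ 1`, `σ j : V →ₗ[ℚ] ℝ` (`j : Fin d`) are
`ℚ`-linear maps to the reals, `g l` (`l : Fin d`) are vectors such that the real matrix
`M j l = σ j (g l)` is invertible.

1. `g` is linearly independent over `ℚ`: if `∑ l, c l • g l = 0` then applying `σ j` gives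
   `M *ᵥ (fun l => (c l : ℝ)) = 0` (`map_sum`, `map_smul`, `Rat.smul_def` / `Rat.cast_smul_eq_qsmul`),
   so `c = 0` (`Matrix.eq_zero_of_mulVec_eq_zero hdet`, `Rat.cast_eq_zero`).
   (`Fintype.linearIndependent_iff`.)
2. `Fintype.card (Fin d) = d = finrank ℚ V`, so `g` is a basis
   (`basisOfLinearIndependentOfCardEqFinrank`, `Fin d` is nonempty as `0 < d`); every `e` is
   `∑ l, ε l • g l` with `ε = b.repr e` (`Basis.sum_repr`).
3. Applying `σ j`: `M *ᵥ ε = fun j => σ j e`, hence `ε = M⁻¹ *ᵥ (fun j => σ j e)`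
   (`Matrix.nonsing_inv_mul`, `Matrix.mulVec_mulVec`, `isUnit_iff_ne_zero`), so
   `|ε l| ≤ ∑ j, |M⁻¹ l j| * |σ j e| ≤ (∑ j, |M⁻¹ l j|) * B`.
   Take `C = 1 + ∑ l, ∑ j, |M⁻¹ l j|`; `B > 0` because `|σ j e| < B` for the index
   `j = ⟨0, hd⟩`; so `|ε l| ≤ (C - 1) * B < C * B`.
-/

namespace Vale.Agent.H97.FO

open scoped BigOperators

theorem fo4_apply {V : Type*} [AddCommGroup V] [Module ℚ V] (d : ℕ) (σ : Fin d → V →ₗ[ℚ] ℝ)
    (g : Fin d → V) (c : Fin d → ℚ) (j : Fin d) :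
    σ j (∑ l, c l • g l)
      = Matrix.mulVec (Matrix.of fun j l : Fin d => σ j (g l)) (fun l => (c l : ℝ)) j := by
  rw [map_sum]
  simp only [Matrix.mulVec, dotProduct, Matrix.of_apply, map_smul]
  apply Finset.sum_congr rfl
  intro l _
  rw [Rat.smul_def, mul_comm]

/-- Rational coordinates with respect to `d` vectors whose images under `d` real-valued
`ℚ`-linear maps form an invertible matrix, with a bound for the coordinates. -/
theorem fo_lin {V : Type*} [AddCommGroup V] [Module ℚ V] [FiniteDimensional ℚ V] (d : ℕ)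
    (hd : 0 < d) (hV : Module.finrank ℚ V = d) (σ : Fin d → V →ₗ[ℚ] ℝ) (g : Fin d → V)
    (hdet : (Matrix.of fun j l : Fin d => σ j (g l)).det ≠ 0) :
    ∃ C : ℝ, 0 < C ∧ ∀ e : V, ∃ ε : Fin d → ℚ, e = ∑ l, ε l • g l ∧
      ∀ B : ℝ, (∀ j, |σ j e| < B) → ∀ l, |(ε l : ℝ)| < C * B := by
  obtain ⟨M, hM⟩ : ∃ M : Matrix (Fin d) (Fin d) ℝ, M = Matrix.of fun j l : Fin d => σ j (g l) :=
    ⟨_, rfl⟩
  rw [← hM] at hdet
  have happ : ∀ (c : Fin d → ℚ) (j : Fin d),
      σ j (∑ l, c l • g l) = Matrix.mulVec M (fun l => (c l : ℝ)) j := by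
    intro c j
    rw [hM]
    exact fo4_apply d σ g c j
  have hli : LinearIndependent ℚ g := by
    rw [Fintype.linearIndependent_iff]
    intro c hc l
    have h0 : Matrix.mulVec M (fun l => (c l : ℝ)) = 0 := by
      funext j
      rw [← happ c j, hc, map_zero]
      rfl
    have h1 := Matrix.eq_zero_of_mulVec_eq_zero hdet h0
    have h2 : ((c l : ℚ) : ℝ) = 0 := congrFun h1 l
    exact_mod_cast h2
  have hne : Nonempty (Fin d) := ⟨⟨0, hd⟩⟩
  obtain ⟨b, hb⟩ : ∃ b : Module.Basis (Fin d) ℚ V, ∀ l, b l = g l :=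
    ⟨basisOfLinearIndependentOfCardEqFinrank hli (by rw [Fintype.card_fin, hV]),
      fun l => by rw [coe_basisOfLinearIndependentOfCardEqFinrank]⟩
  have hunit : IsUnit M.det := isUnit_iff_ne_zero.2 hdet
  refine ⟨1 + ∑ l, ∑ j, |M⁻¹ l j|, by positivity, ?_⟩
  intro e
  have hsum : ∑ l, (b.repr e l) • g l = e := by
    have h := b.sum_repr e
    simp only [hb] at h
    exact h
  refine ⟨fun l => b.repr e l, hsum.symm, ?_⟩
  intro B hB l
  have hB0 : 0 < B := lt_of_le_of_lt (abs_nonneg _) (hB ⟨0, hd⟩)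
  have hs : Matrix.mulVec M (fun l => ((b.repr e l : ℚ) : ℝ)) = fun j => σ j e := by
    funext j
    rw [← happ (fun l => b.repr e l) j, hsum]
  have hε : (fun l => ((b.repr e l : ℚ) : ℝ)) = Matrix.mulVec M⁻¹ (fun j => σ j e) := by
    rw [← hs, Matrix.mulVec_mulVec, Matrix.nonsing_inv_mul M hunit, Matrix.one_mulVec]
  have hl : ((b.repr e l : ℚ) : ℝ) = ∑ j, M⁻¹ l j * σ j e := by
    have h := congrFun hε l
    simp only [Matrix.mulVec, dotProduct] at h
    exact h
  rw [hl]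
  calc |∑ j, M⁻¹ l j * σ j e| ≤ ∑ j, |M⁻¹ l j * σ j e| := Finset.abs_sum_le_sum_abs _ _
    _ = ∑ j, |M⁻¹ l j| * |σ j e| := by simp only [abs_mul]
    _ ≤ ∑ j, |M⁻¹ l j| * B :=
        Finset.sum_le_sum (fun j _ => mul_le_mul_of_nonneg_left (hB j).le (abs_nonneg _))
    _ = (∑ j, |M⁻¹ l j|) * B := by rw [Finset.sum_mul]
    _ ≤ (∑ l, ∑ j, |M⁻¹ l j|) * B := by
        apply mul_le_mul_of_nonneg_right _ hB0.le
        exact Finset.single_le_sum (f := fun l => ∑ j, |M⁻¹ l j|)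
          (fun i _ => Finset.sum_nonneg (fun j _ => abs_nonneg _)) (Finset.mem_univ l)
    _ < (1 + ∑ l, ∑ j, |M⁻¹ l j|) * B := by nlinarith

end Vale.Agent.H97.FO
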