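import Vale.Agent.H97.FO.Defs

/-!
# Foster sums: from the corrected Riemann sum to a sum of terms (support for P058, project FO)

TASK FO-9.  Prove `fo_pack` (keep the statement unchanged; helper lemmas with fresh names
starting `fo9_` inside this file).  Only Mathlib and the definitions `fk`, `fo_atoms`, `fo_R`
(FO/Defs.lean, unfold them).

`Pr` is a property of real numbers which holds for every term
`k * (θ / (θ ^ 2 + n))` with positive rationals `k`, `n` and is closed under addition.  From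
`hid`:
`1 = ∑ l < d, (q r + ε l) * fk θ (l + 1)
   + ∑ l < d, ∑ f < P, (q (1 - r) / P) * fk θ (l + (1 - r) (f + 1) / P)
   + ∑ f < P, (q (S - d) / P) * fk θ (d + (S - d) (f + 1) / P)`
(`Finset.mul_sum`, `Finset.sum_add_distrib`, `ring`).  Each summand is a term:
* `((q * r + ε l : ℚ) : ℝ) * (θ / (θ ^ 2 + (((l + 1) ^ 2 : ℚ) : ℝ)))`, `k > 0` by `hε`;
* `((q * (1 - r) / P : ℚ) : ℝ) * (θ / (θ ^ 2 + (((l + (1 - r) * (f + 1) / P) ^ 2 : ℚ) : ℝ)))`,
  `k > 0` as `q > 0`, `r < 1`, `P > 0`; `n > 0` as `l ≥ 0` and `(1 - r) (f + 1) / P > 0`;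
* `((q * (S - d) / P : ℚ) : ℝ) * (θ / (θ ^ 2 + (((d + (S - d) * (f + 1) / P) ^ 2 : ℚ) : ℝ)))`,
  `k > 0` as `d < S`
(`push_cast`, `fk`).  Closure under nonempty sums over `Finset.range (N + 1)` by induction
(`Finset.sum_range_succ`); `d = d' + 1`, `P = P' + 1` (`Nat.exists_eq_succ_of_ne_zero`).
-/

namespace Vale.Agent.H97.FO

open scoped BigOperators

/-- A property closed under addition holds for nonempty sums over `Finset.range N`. -/
theorem fo9_sum (Pr : ℝ → Prop) (hadd : ∀ x y : ℝ, Pr x → Pr y → Pr (x + y)) (g : ℕ → ℝ) :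
    ∀ N : ℕ, 0 < N → (∀ i, i < N → Pr (g i)) → Pr (∑ i ∈ Finset.range N, g i) := by
  intro N
  induction N with
  | zero =>
    intro h
    exact absurd h (lt_irrefl 0)
  | succ N ih =>
    intro _ hg
    rw [Finset.sum_range_succ]
    rcases Nat.eq_zero_or_pos N with h0 | h0
    · subst h0
      simpa using hg 0 (by norm_num)
    · exact hadd _ _ (ih h0 (fun i hi => hg i (by omega))) (hg N (by omega))

/-- A term with a rational weight and a rational node. -/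
theorem fo9_term (θ : ℝ) (Pr : ℝ → Prop)
    (hterm : ∀ k n : ℚ, 0 < k → 0 < n → Pr ((k : ℝ) * (θ / (θ ^ 2 + (n : ℝ)))))
    (k s : ℚ) (hk : 0 < k) (hs : 0 < s) : Pr ((k : ℝ) * fk θ (s : ℝ)) := by
  have h := hterm k (s ^ 2) hk (by positivity)
  have e : ((s ^ 2 : ℚ) : ℝ) = (s : ℝ) ^ 2 := by push_cast; ring
  rw [e] at h
  unfold fk
  exact h

/-- A property which holds for all terms `k * (θ / (θ ^ 2 + n))` with positive rational
`k`, `n` and is closed under addition holds for `1`, given the corrected Riemann sum. -/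
theorem fo_pack (θ : ℝ) (Pr : ℝ → Prop)
    (hterm : ∀ k n : ℚ, 0 < k → 0 < n → Pr ((k : ℝ) * (θ / (θ ^ 2 + (n : ℝ)))))
    (hadd : ∀ x y : ℝ, Pr x → Pr y → Pr (x + y))
    (d S P : ℕ) (q r : ℚ) (ε : ℕ → ℚ) (hd : 0 < d) (hq : 0 < q) (hr0 : 0 < r) (hr1 : r < 1)
    (hS : d < S) (hP : 0 < P) (hε : ∀ l, l < d → 0 < q * r + ε l)
    (hid : 1 - (q : ℝ) * ((r : ℝ) * fo_atoms d θ + fo_R d (r : ℝ) S P θ) =
      ∑ l ∈ Finset.range d, (ε l : ℝ) * fk θ ((l : ℝ) + 1)) : Pr 1 := by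
  have hr1' : (0 : ℚ) < 1 - r := sub_pos.mpr hr1
  have hP' : (0 : ℚ) < (P : ℚ) := Nat.cast_pos.mpr hP
  have hSd : (0 : ℚ) < (S : ℚ) - (d : ℚ) := sub_pos.mpr (Nat.cast_lt.mpr hS)
  have hA : ∑ l ∈ Finset.range d,
        (((q * r + ε l : ℚ)) : ℝ) * fk θ ((((l : ℚ) + 1 : ℚ)) : ℝ)
      = (q : ℝ) * ((r : ℝ) * fo_atoms d θ) +
        ∑ l ∈ Finset.range d, (ε l : ℝ) * fk θ ((l : ℝ) + 1) := by
    unfold fo_atoms
    rw [Finset.mul_sum, Finset.mul_sum, ← Finset.sum_add_distrib]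
    apply Finset.sum_congr rfl
    intro l _
    push_cast
    ring
  have hB : ∑ l ∈ Finset.range d, ∑ f ∈ Finset.range P,
        (((q * (1 - r) / (P : ℚ) : ℚ)) : ℝ) *
          fk θ ((((l : ℚ) + (1 - r) * ((f : ℚ) + 1) / (P : ℚ) : ℚ)) : ℝ)
      = (q : ℝ) * ∑ l ∈ Finset.range d, ∑ f ∈ Finset.range P,
        ((1 - (r : ℝ)) / (P : ℝ)) *
          fk θ ((l : ℝ) + (1 - (r : ℝ)) * ((f : ℝ) + 1) / (P : ℝ)) := by
    rw [Finset.mul_sum]
    apply Finset.sum_congr rfl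
    intro l _
    rw [Finset.mul_sum]
    apply Finset.sum_congr rfl
    intro f _
    push_cast
    ring
  have hC : ∑ f ∈ Finset.range P,
        (((q * ((S : ℚ) - (d : ℚ)) / (P : ℚ) : ℚ)) : ℝ) *
          fk θ ((((d : ℚ) + ((S : ℚ) - (d : ℚ)) * ((f : ℚ) + 1) / (P : ℚ) : ℚ)) : ℝ)
      = (q : ℝ) * ∑ f ∈ Finset.range P,
        (((S : ℝ) - (d : ℝ)) / (P : ℝ)) *
          fk θ ((d : ℝ) + ((S : ℝ) - (d : ℝ)) * ((f : ℝ) + 1) / (P : ℝ)) := by
    rw [Finset.mul_sum]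
    apply Finset.sum_congr rfl
    intro f _
    push_cast
    ring
  have hPA : Pr (∑ l ∈ Finset.range d,
      (((q * r + ε l : ℚ)) : ℝ) * fk θ ((((l : ℚ) + 1 : ℚ)) : ℝ)) :=
    fo9_sum Pr hadd _ d hd (fun l hl => fo9_term θ Pr hterm _ _ (hε l hl) (by positivity))
  have hPB : Pr (∑ l ∈ Finset.range d, ∑ f ∈ Finset.range P,
      (((q * (1 - r) / (P : ℚ) : ℚ)) : ℝ) *
        fk θ ((((l : ℚ) + (1 - r) * ((f : ℚ) + 1) / (P : ℚ) : ℚ)) : ℝ)) :=
    fo9_sum Pr hadd _ d hd (fun l _ => fo9_sum Pr hadd _ P hP (fun f _ =>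
      fo9_term θ Pr hterm _ _ (div_pos (mul_pos hq hr1') hP')
        (add_pos_of_nonneg_of_pos (Nat.cast_nonneg l)
          (div_pos (mul_pos hr1' (by positivity)) hP'))))
  have hPC : Pr (∑ f ∈ Finset.range P,
      (((q * ((S : ℚ) - (d : ℚ)) / (P : ℚ) : ℚ)) : ℝ) *
        fk θ ((((d : ℚ) + ((S : ℚ) - (d : ℚ)) * ((f : ℚ) + 1) / (P : ℚ) : ℚ)) : ℝ)) :=
    fo9_sum Pr hadd _ P hP (fun f _ =>
      fo9_term θ Pr hterm _ _ (div_pos (mul_pos hq hSd) hP')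
        (add_pos_of_nonneg_of_pos (Nat.cast_nonneg d)
          (div_pos (mul_pos hSd (by positivity)) hP')))
  have h1 : (1 : ℝ) =
      ∑ l ∈ Finset.range d, (((q * r + ε l : ℚ)) : ℝ) * fk θ ((((l : ℚ) + 1 : ℚ)) : ℝ) +
      ∑ l ∈ Finset.range d, ∑ f ∈ Finset.range P,
        (((q * (1 - r) / (P : ℚ) : ℚ)) : ℝ) *
          fk θ ((((l : ℚ) + (1 - r) * ((f : ℚ) + 1) / (P : ℚ) : ℚ)) : ℝ) +
      ∑ f ∈ Finset.range P,
        (((q * ((S : ℚ) - (d : ℚ)) / (P : ℚ) : ℚ)) : ℝ) *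
          fk θ ((((d : ℚ) + ((S : ℚ) - (d : ℚ)) * ((f : ℚ) + 1) / (P : ℚ) : ℚ)) : ℝ) := by
    rw [hA, hB, hC]
    unfold fo_R at hid
    linear_combination hid
  rw [h1]
  exact hadd _ _ (hadd _ _ hPA hPB) hPC

end Vale.Agent.H97.FO
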