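import Vale.Agent.H97.FO.Core
import Vale.Agent.H97.FO.Pack
import Vale.Agent.H97.FO.Gad
import Vale.Agent.H80.GM.Ends3

/-!
# Cyclic quadrilaterals with a totally real diagonal ratio (support for P058, project FO)

`fo_main`: for a real algebraic `mu` in `(0, 1)` all of whose complex conjugates are real and lie
in `(0, 1)`, and `th = mu / (1 - mu)`: every property of real numbers which holds for all terms
`k * (th / (th ^ 2 + n))` with positive rational `k`, `n` and is closed under addition holds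
for `1`; that is, `1` is a finite sum of such terms (a positive rational Foster form).

`fo_gadget`: for such `mu` there is a weighted single-kink structure in a `2`-group with kink
value `0`.

`fo_gquad_all`: if moreover `lam` in `(0, 1)` is real algebraic with all real conjugates in
`(0, 1)`, then every cyclic quadrilateral `gquad lam mu c`, `|c| < 1`, is Ramsey and is
congruent to a subset of a finite set with a soluble transitive group of isometries.
-/

namespace Vale.Agent.H97.FO

open Vale.Agent.H16.Kite Vale.Agent.H80.GN Vale.Agent.H80.GM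
open Polynomial

/-- A positive rational Foster form of `1` at `th = mu / (1 - mu)`, in closure form. -/
theorem fo_main (mu : ℝ) (hm0 : 0 < mu) (hm1 : mu < 1) (halg : IsAlgebraic ℚ mu)
    (htot : ∀ z : ℂ, aeval z (minpoly ℚ mu) = 0 → z.im = 0 ∧ 0 < z.re ∧ z.re < 1)
    (Pr : ℝ → Prop)
    (hterm : ∀ k n : ℚ, 0 < k → 0 < n →
      Pr ((k : ℝ) * ((mu / (1 - mu)) / ((mu / (1 - mu)) ^ 2 + (n : ℝ)))))
    (hadd : ∀ x y : ℝ, Pr x → Pr y → Pr (x + y)) : Pr 1 := by
  obtain ⟨d, S, P, q, r, ε, hd, hq, hr0, hr1, hS, hP, hε, hid⟩ := fo_core mu hm0 hm1 halg htot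
  exact fo_pack _ Pr hterm hadd d S P q r ε hd hq hr0 hr1 hS hP hε hid

/-- The gadget for a totally real weight with all conjugates in `(0, 1)`. -/
theorem fo_gadget (mu : ℝ) (hm0 : 0 < mu) (hm1 : mu < 1) (halg : IsAlgebraic ℚ mu)
    (htot : ∀ z : ℂ, aeval z (minpoly ℚ mu) = 0 → z.im = 0 ∧ 0 < z.re ∧ z.re < 1) :
    ∃ p : ℝ, WAch mu 0 p := by
  have h1 : FS mu 1 := fo_main mu hm0 hm1 halg htot (FS mu)
    (fun k n hk hn => fs_term mu hm0 hm1 k n hk hn) (fun x y hx hy => fs_add mu x y hx hy)
  obtain ⟨p, hp⟩ := h1.2 1 one_pos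
  refine ⟨p, ge_congr hp ?_ rfl⟩
  norm_num

/-- The real conjugates of a totally real `mu` with all conjugates in `(0, 1)`. -/
theorem fo_real_conj (mu : ℝ)
    (htot : ∀ z : ℂ, aeval z (minpoly ℚ mu) = 0 → z.im = 0 ∧ 0 < z.re ∧ z.re < 1) :
    ∀ l' : ℝ, aeval l' (minpoly ℚ mu) = 0 → 0 < l' ∧ l' < 1 := by
  intro l' hl'
  have h : aeval (l' : ℂ) (minpoly ℚ mu) = 0 := by
    have := congrArg (algebraMap ℝ ℂ) hl'
    rw [← Polynomial.aeval_algebraMap_apply] at this
    simpa using this
  have h2 := (htot (l' : ℂ) h).2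
  simpa using h2

/-- **All angles, totally real `mu`.** Let `mu` in `(0, 1)` be real algebraic with all complex
conjugates real and in `(0, 1)`, and `lam` in `(0, 1)` real algebraic with all real conjugates
in `(0, 1)`.  Then every cyclic quadrilateral with diagonal ratios `lam`, `mu` is Ramsey and is
congruent to a subset of a finite set with a soluble transitive group of isometries. -/
theorem fo_gquad_all (lam mu c : ℝ) (hl0 : 0 < lam) (hl1 : lam < 1) (hm0 : 0 < mu)
    (hm1 : mu < 1) (hc : |c| < 1) (halg : IsAlgebraic ℚ lam)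
    (hreal : ∀ l' : ℝ, aeval l' (minpoly ℚ lam) = 0 → 0 < l' ∧ l' < 1)
    (hmalg : IsAlgebraic ℚ mu)
    (htot : ∀ z : ℂ, aeval z (minpoly ℚ mu) = 0 → z.im = 0 ∧ 0 < z.re ∧ z.re < 1) :
    IsRamsey (gquad lam mu c) ∧ EmbedsInSolubleTransitive (gquad lam mu c) ∧
      EmbedsInTransitive (gquad lam mu c) :=
  gquad_all_of_ps_true lam mu hl0 hl1 hm0 hm1
    (gm_ps_ends lam mu hl0 hl1 hm0 hm1 halg hreal hmalg (fo_real_conj mu htot)
      (fo_gadget mu hm0 hm1 hmalg htot)) c hc

end Vale.Agent.H97.FO
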