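import Vale.Agent.H97.FO.Cell

/-!
# Foster sums: the Riemann sum with atoms (support for P058, project FO)

TASK FO-2.  Prove `fo_riemann` (keep the statement unchanged; helper lemmas with fresh names
starting `fo2_` inside this file).  Black boxes (may still be open): `fo_cell`, `fo_uni`
(FO/Cell.lean).  Definitions `fk`, `fo_atoms`, `fo_R` in FO/Defs.lean (unfold them).

The partition of `[0, S]`: for each `l < d` the interval `[l, l + 1 - r]` cut into `P` equal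
cells (fine part) and the window `[l + 1 - r, l + 1]` as ONE cell with node `l + 1` (the atom,
weight `r`); then `[d, S]` cut into `P` equal cells.

Induction on `d` for the statement
`|arctan (d / τ) - (r * fo_atoms d τ + ∑ l < d, ∑ f < P, (1 - r) / P * fk τ (l + (1 - r) (f + 1) / P))|
  ≤ d ^ 2 / (P τ ^ 3) + r ^ 2 * (d (d + 1)) / τ ^ 3`
(for `d = 0` both sides are `0`, `Real.arctan_zero`).  Step `l = d`:
* `fo_uni τ l (l + 1 - r)` with `P` cells: `B - A = 1 - r`, error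
  `≤ (1 - r) / P * ((l + 1 - r) ^ 2 - l ^ 2) / τ ^ 3 ≤ (2 l + 1) / (P τ ^ 3)`;
* `fo_cell τ (l + 1 - r) (l + 1) (l + 1)`: `b - a = r`, error
  `≤ r * ((l + 1) ^ 2 - (l + 1 - r) ^ 2) / τ ^ 3 ≤ 2 (l + 1) r ^ 2 / τ ^ 3`;
* `(d + 1) ^ 2 = d ^ 2 + (2 d + 1)`, `(d + 1) (d + 2) = d (d + 1) + 2 (d + 1)`.
Finally `fo_uni τ d S` with `P` cells: error `≤ (S - d) / P * (S ^ 2 - d ^ 2) / τ ^ 3
≤ S ^ 3 / (P τ ^ 3)`, and the triangle inequality.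
-/

namespace Vale.Agent.H97.FO

open scoped BigOperators

/-- The coarse part (atoms and the fine cells of the first `d` unit intervals) approximates
`arctan (d / τ)`. -/
lemma fo2_coarse (r : ℝ) (P : ℕ) (τ : ℝ) (hr0 : 0 < r) (hr1 : r < 1) (hP : 0 < P) (hτ : 0 < τ)
    (d : ℕ) :
    |Real.arctan ((d : ℝ) / τ) - (r * fo_atoms d τ + ∑ l ∈ Finset.range d, ∑ f ∈ Finset.range P,
        ((1 - r) / (P : ℝ)) * fk τ ((l : ℝ) + (1 - r) * ((f : ℝ) + 1) / (P : ℝ)))| ≤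
      (d : ℝ) ^ 2 / ((P : ℝ) * τ ^ 3) + r ^ 2 * ((d : ℝ) * ((d : ℝ) + 1)) / τ ^ 3 := by
  have hP' : (0 : ℝ) < P := by exact_mod_cast hP
  have hτ3 : 0 < τ ^ 3 := by positivity
  induction d with
  | zero => simp [fo_atoms]
  | succ d ih =>
    have hd : (0 : ℝ) ≤ d := Nat.cast_nonneg d
    -- the fine part of `[d, d + 1 - r]`
    have h1 := fo_uni τ (d : ℝ) ((d : ℝ) + 1 - r) hτ hd (by linarith) P hP
    have e1 : (d : ℝ) + 1 - r - d = 1 - r := by ring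
    rw [e1] at h1
    -- the atom: the window `[d + 1 - r, d + 1]` as one cell
    have h2 := fo_cell τ ((d : ℝ) + 1 - r) ((d : ℝ) + 1) ((d : ℝ) + 1) hτ (by linarith)
      (by linarith) (by linarith) le_rfl
    have e2 : (d : ℝ) + 1 - ((d : ℝ) + 1 - r) = r := by ring
    rw [e2] at h2
    have b1 : (1 - r) / (P : ℝ) * (((d : ℝ) + 1 - r) ^ 2 - (d : ℝ) ^ 2) / τ ^ 3 ≤
        (2 * (d : ℝ) + 1) / ((P : ℝ) * τ ^ 3) := by
      have e : (1 - r) / (P : ℝ) * (((d : ℝ) + 1 - r) ^ 2 - (d : ℝ) ^ 2) / τ ^ 3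
          = ((1 - r) * (((d : ℝ) + 1 - r) ^ 2 - (d : ℝ) ^ 2)) / ((P : ℝ) * τ ^ 3) := by
        field_simp
      rw [e]
      apply div_le_div_of_nonneg_right _ (by positivity)
      have hX0 : 0 ≤ ((d : ℝ) + 1 - r) ^ 2 - (d : ℝ) ^ 2 := by
        have h := mul_nonneg (sub_nonneg.2 hr1.le) (by linarith : (0 : ℝ) ≤ 2 * (d : ℝ) + 1 - r)
        nlinarith
      have hX1 : ((d : ℝ) + 1 - r) ^ 2 - (d : ℝ) ^ 2 ≤ 2 * (d : ℝ) + 1 := by
        have h := mul_nonneg hr0.le (by linarith : (0 : ℝ) ≤ 2 * ((d : ℝ) + 1) - r)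
        nlinarith
      calc (1 - r) * (((d : ℝ) + 1 - r) ^ 2 - (d : ℝ) ^ 2)
          ≤ 1 * (((d : ℝ) + 1 - r) ^ 2 - (d : ℝ) ^ 2) :=
            mul_le_mul_of_nonneg_right (by linarith) hX0
        _ ≤ 2 * (d : ℝ) + 1 := by linarith
    have b2 : r * (((d : ℝ) + 1) ^ 2 - ((d : ℝ) + 1 - r) ^ 2) / τ ^ 3 ≤
        2 * ((d : ℝ) + 1) * r ^ 2 / τ ^ 3 := by
      apply div_le_div_of_nonneg_right _ hτ3.le
      have h := mul_nonneg (mul_nonneg hr0.le hr0.le) hr0.le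
      nlinarith
    have key : Real.arctan (((d + 1 : ℕ) : ℝ) / τ) - (r * fo_atoms (d + 1) τ +
          ∑ l ∈ Finset.range (d + 1), ∑ f ∈ Finset.range P,
            ((1 - r) / (P : ℝ)) * fk τ ((l : ℝ) + (1 - r) * ((f : ℝ) + 1) / (P : ℝ)))
        = (Real.arctan ((d : ℝ) / τ) - (r * fo_atoms d τ + ∑ l ∈ Finset.range d,
            ∑ f ∈ Finset.range P,
              ((1 - r) / (P : ℝ)) * fk τ ((l : ℝ) + (1 - r) * ((f : ℝ) + 1) / (P : ℝ))))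
          + (Real.arctan (((d : ℝ) + 1 - r) / τ) - Real.arctan ((d : ℝ) / τ) -
              ∑ f ∈ Finset.range P,
                ((1 - r) / (P : ℝ)) * fk τ ((d : ℝ) + (1 - r) * ((f : ℝ) + 1) / (P : ℝ)))
          + (Real.arctan (((d : ℝ) + 1) / τ) - Real.arctan (((d : ℝ) + 1 - r) / τ) -
              r * fk τ ((d : ℝ) + 1)) := by
      unfold fo_atoms
      rw [Finset.sum_range_succ, Finset.sum_range_succ]
      push_cast
      ring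
    rw [key]
    refine (abs_add_three _ _ _).trans ?_
    have e3 : (((d + 1 : ℕ) : ℝ)) ^ 2 / ((P : ℝ) * τ ^ 3) +
        r ^ 2 * ((((d + 1 : ℕ) : ℝ)) * ((((d + 1 : ℕ) : ℝ)) + 1)) / τ ^ 3
        = ((d : ℝ) ^ 2 / ((P : ℝ) * τ ^ 3) + r ^ 2 * ((d : ℝ) * ((d : ℝ) + 1)) / τ ^ 3)
          + (2 * (d : ℝ) + 1) / ((P : ℝ) * τ ^ 3) + 2 * ((d : ℝ) + 1) * r ^ 2 / τ ^ 3 := by
      push_cast
      field_simp
      ring
    rw [e3]
    exact add_le_add (add_le_add ih (h1.trans b1)) (h2.trans b2)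

/-- The Riemann sum with atoms approximates `arctan (S / τ)`. -/
theorem fo_riemann (d : ℕ) (r : ℝ) (S P : ℕ) (τ : ℝ) (hr0 : 0 < r) (hr1 : r < 1) (hS : d < S)
    (hP : 0 < P) (hτ : 0 < τ) :
    |Real.arctan ((S : ℝ) / τ) - (r * fo_atoms d τ + fo_R d r S P τ)| ≤
      ((d : ℝ) ^ 2 + (S : ℝ) ^ 3) / ((P : ℝ) * τ ^ 3) +
        r ^ 2 * ((d : ℝ) * ((d : ℝ) + 1)) / τ ^ 3 := by
  have hP' : (0 : ℝ) < P := by exact_mod_cast hP
  have hτ3 : 0 < τ ^ 3 := by positivity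
  have hd : (0 : ℝ) ≤ d := Nat.cast_nonneg d
  have hdS : (d : ℝ) ≤ S := by exact_mod_cast hS.le
  have h0 := fo2_coarse r P τ hr0 hr1 hP hτ d
  have h1 := fo_uni τ (d : ℝ) (S : ℝ) hτ hd hdS P hP
  have b1 : ((S : ℝ) - d) / (P : ℝ) * ((S : ℝ) ^ 2 - (d : ℝ) ^ 2) / τ ^ 3 ≤
      (S : ℝ) ^ 3 / ((P : ℝ) * τ ^ 3) := by
    have e : ((S : ℝ) - d) / (P : ℝ) * ((S : ℝ) ^ 2 - (d : ℝ) ^ 2) / τ ^ 3
        = (((S : ℝ) - d) * ((S : ℝ) ^ 2 - (d : ℝ) ^ 2)) / ((P : ℝ) * τ ^ 3) := by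
      field_simp
    rw [e]
    apply div_le_div_of_nonneg_right _ (by positivity)
    have hS0 : (0 : ℝ) ≤ S := hd.trans hdS
    have h2 : (0 : ℝ) ≤ (S : ℝ) - d := sub_nonneg.2 hdS
    have h3 : (S : ℝ) ^ 2 - (d : ℝ) ^ 2 ≤ (S : ℝ) ^ 2 := by nlinarith
    have h4 : (0 : ℝ) ≤ (S : ℝ) ^ 2 - (d : ℝ) ^ 2 := by nlinarith
    calc ((S : ℝ) - d) * ((S : ℝ) ^ 2 - (d : ℝ) ^ 2) ≤ (S : ℝ) * (S : ℝ) ^ 2 :=
          mul_le_mul (by linarith) h3 h4 hS0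
      _ = (S : ℝ) ^ 3 := by ring
  have key : Real.arctan ((S : ℝ) / τ) - (r * fo_atoms d τ + fo_R d r S P τ)
      = (Real.arctan ((d : ℝ) / τ) - (r * fo_atoms d τ + ∑ l ∈ Finset.range d,
          ∑ f ∈ Finset.range P,
            ((1 - r) / (P : ℝ)) * fk τ ((l : ℝ) + (1 - r) * ((f : ℝ) + 1) / (P : ℝ))))
        + (Real.arctan ((S : ℝ) / τ) - Real.arctan ((d : ℝ) / τ) -
            ∑ f ∈ Finset.range P, (((S : ℝ) - (d : ℝ)) / (P : ℝ)) *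
              fk τ ((d : ℝ) + ((S : ℝ) - (d : ℝ)) * ((f : ℝ) + 1) / (P : ℝ))) := by
    unfold fo_R
    ring
  rw [key]
  refine (abs_add_le _ _).trans ?_
  have e3 : ((d : ℝ) ^ 2 + (S : ℝ) ^ 3) / ((P : ℝ) * τ ^ 3) +
      r ^ 2 * ((d : ℝ) * ((d : ℝ) + 1)) / τ ^ 3
      = ((d : ℝ) ^ 2 / ((P : ℝ) * τ ^ 3) + r ^ 2 * ((d : ℝ) * ((d : ℝ) + 1)) / τ ^ 3)
        + (S : ℝ) ^ 3 / ((P : ℝ) * τ ^ 3) := by
    ring
  rw [e3]
  exact add_le_add h0 (h1.trans b1)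

end Vale.Agent.H97.FO
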